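import Vale.Agent.N052.CWBall

/-!
# P052: the regular completion of a compact set, as an average of completions
-/

set_option linter.unusedSectionVars false

namespace Vale.Agent.N052.CW

open Set Metric MeasureTheory
open scoped RealInnerProductSpace

variable {E : Type*} [NormedAddCommGroup E] [InnerProductSpace ℝ E] [FiniteDimensional ℝ E]
  {D : ℝ} {X Y : Set E} {u v : E}

theorem ray (hD : 0 < D) {K : Set E} (hK : Convex ℝ K) {a b w : E} (hw : ‖w‖ = 1) (hb : b ∈ K)
    (hab : ⟪u, a⟫ < ⟪u, b⟫) (hc : a - D • w ∈ K)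
    (Pu : ∀ z ∈ K, ⟪u, a⟫ < ⟪u, z⟫ → ‖a - z‖ ^ 2 + 2 * D * ⟪u, a - z⟫ ≤ 0)
    (Pw : ∀ z ∈ K, ⟪u, a⟫ < ⟪u, z⟫ → ‖a - z‖ ^ 2 + 2 * D * ⟪w, a - z⟫ ≤ 0) :
    ∃ l : ℝ, 0 < l ∧ b - a = l • w := by
  set γ := D * ⟪u, w⟫ with hγ
  set β := ⟪u, b⟫ - ⟪u, a⟫ with hβ
  have hβ0 : 0 < β := sub_pos.2 hab
  have hγ0 : 0 ≤ γ := by
    by_contra hcon
    push Not at hcon
    have h1 := Pw _ hc (by rw [inner_sub_right, inner_smul_right]; linarith)
    rw [sub_sub_cancel, norm_smul, inner_smul_right, real_inner_self_eq_norm_sq, hw,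
      Real.norm_eq_abs, abs_of_pos hD] at h1
    nlinarith
  set t₀ := β / (β + γ) with ht₀
  have hs : 0 < β + γ := by linarith
  have ht0 : 0 < t₀ := div_pos hβ0 hs
  have ht1 : t₀ ≤ 1 := (div_le_one hs).2 (by linarith)
  have ht2 : t₀ * (β + γ) = β := div_mul_cancel₀ _ hs.ne'
  have hin : ∀ t : ℝ, ⟪u, a - ((1 - t) • b + t • (a - D • w))⟫ = t * (β + γ) - β := by
    intro t
    simp only [inner_sub_right, inner_add_right, inner_smul_right, hβ, hγ]
    ring
  have hcl : IsClosed {t : ℝ | ‖a - ((1 - t) • b + t • (a - D • w))‖ ^ 2 +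
      2 * D * (t * (β + γ) - β) ≤ 0} := isClosed_le (by fun_prop) continuous_const
  have hsub : Ico 0 t₀ ⊆ {t : ℝ | ‖a - ((1 - t) • b + t • (a - D • w))‖ ^ 2 +
      2 * D * (t * (β + γ) - β) ≤ 0} := by
    rintro t ⟨h1, h2⟩
    have h3 := hin t
    have h4 := Pu _ (hK hb hc (by linarith : (0 : ℝ) ≤ 1 - t) h1 (by ring)) (by
      rw [inner_sub_right] at h3
      nlinarith [mul_lt_mul_of_pos_right h2 hs])
    rwa [h3] at h4
  have h5' : t₀ ∈ closure (Ico 0 t₀) := by
    rw [closure_Ico ht0.ne]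
    exact ⟨ht0.le, le_rfl⟩
  have h5 := hcl.closure_subset_iff.2 hsub h5'
  simp only [mem_ofPred_eq, ht2, sub_self, mul_zero, add_zero] at h5
  have h6 : a - ((1 - t₀) • b + t₀ • (a - D • w)) = 0 :=
    norm_eq_zero.1 (pow_eq_zero_iff two_ne_zero |>.1 (le_antisymm h5 (sq_nonneg _)))
  have h7 : (1 - t₀) • (b - a) = (t₀ * D) • w := by
    have e : (1 - t₀) • (b - a) - (t₀ * D) • w = -(a - ((1 - t₀) • b + t₀ • (a - D • w))) := by
      module
    rw [h6, neg_zero] at e
    exact sub_eq_zero.1 e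
  have h8 : 0 < 1 - t₀ := by
    rcases (sub_nonneg.2 ht1).eq_or_lt with h | h
    · rw [← h, zero_smul] at h7
      have h9 := congrArg norm h7
      rw [norm_zero, norm_smul, hw, Real.norm_eq_abs, abs_of_pos (mul_pos ht0 hD)] at h9
      nlinarith [mul_pos ht0 hD]
    · exact h
  refine ⟨(1 - t₀)⁻¹ * (t₀ * D), by positivity, ?_⟩
  rw [mul_smul, ← h7, smul_smul, inv_mul_cancel₀ h8.ne', one_smul]

theorem Sm.aa_two (h : Sm D Y) (hu : ‖u‖ = 1) (hv : ‖v‖ = 1) (huv : u ≠ v)
    (H : aa D Y u = aa D Y v) : aa D Y u ∈ Y :=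
  mem_of_two h.pos h.cpt h.ne hu hv huv (h.aa_mem hu) (h.aa_sub u) (H ▸ h.aa_sub v)

/-- If the support points in two directions agree whatever point is added, they are one and the
same point of `X`. -/
theorem Sm.rigid (h : Sm D X) (hu : ‖u‖ = 1) (hv : ‖v‖ = 1) (huv : u ≠ v)
    (H : ∀ z ∈ dual D X, aa D (Insert.insert z X) u = aa D (Insert.insert z X) v) :
    aa D X u ∈ X ∧ ∀ z ∈ dual D X, aa D (Insert.insert z X) u = aa D X u ∧
      bb D (Insert.insert z X) u = aa D X u := by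
  obtain ⟨x₀, hx₀⟩ := h.ne
  have H0 := H x₀ (h.sub hx₀)
  rw [insert_eq_of_mem hx₀] at H0
  have haX := h.aa_two hu hv huv H0
  set a := aa D X u with ha
  have hP : ∀ z ∈ dual D X, ⟪u, a⟫ < ⟪u, z⟫ → z - D • u ∈ dual D X ∧ z - D • v ∈ dual D X := by
    intro z hz hlt
    have hY := h.insert hz
    have h1 := le_of_gen h.pos (hY.aa_gen hu (subset_dual_dual D _ (mem_insert z X)))
    have h2 : aa D (Insert.insert z X) u = z := by
      rcases hY.aa_two hu hv huv (H z hz) with h2 | h2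
      · exact h2
      · have h3 := le_of_gen h.pos (h.aa_gen hu (subset_dual_dual D _ h2))
        linarith
    have h3 := hY.aa_sub u
    have h4 := hY.aa_sub v
    rw [← H z hz] at h4
    rw [h2] at h3 h4
    exact ⟨dual_anti (subset_insert z X) h3, dual_anti (subset_insert z X) h4⟩
  have hb : a = bb D X u := by
    refine h.bb_uniq hu (h.sub haX) ?_
    by_contra hcon
    push Not at hcon
    have Pu : ∀ z ∈ dual D X, ⟪u, a⟫ < ⟪u, z⟫ → ‖a - z‖ ^ 2 + 2 * D * ⟪u, a - z⟫ ≤ 0 :=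
      fun z hz hlt => (norm_shift_le hu h.pos a z).1 (by
        rw [norm_sub_rev]; exact (hP z hz hlt).1 a haX)
    have Pv : ∀ z ∈ dual D X, ⟪u, a⟫ < ⟪u, z⟫ → ‖a - z‖ ^ 2 + 2 * D * ⟪v, a - z⟫ ≤ 0 :=
      fun z hz hlt => (norm_shift_le hv h.pos a z).1 (by
        rw [norm_sub_rev]; exact (hP z hz hlt).2 a haX)
    obtain ⟨l, hl, e1⟩ := ray h.pos (convex_dual D X) hu (h.bb_mem u) hcon (h.aa_sub u) Pu Pu
    obtain ⟨m, hm, e2⟩ := ray h.pos (convex_dual D X) hv (h.bb_mem u) hcon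
      (H0 ▸ h.aa_sub v) Pu Pv
    have e3 := e1.symm.trans e2
    have e4 := congrArg norm e3
    rw [norm_smul, norm_smul, hu, hv, Real.norm_eq_abs, Real.norm_eq_abs, abs_of_pos hl,
      abs_of_pos hm, mul_one, mul_one] at e4
    rw [← e4] at e3
    exact huv (smul_right_injective E hl.ne' e3)
  refine ⟨haX, fun z hz => ?_⟩
  have hY := h.insert hz
  have hsub : dual D (Insert.insert z X) ⊆ dual D X := dual_anti (subset_insert z X)
  have haY : a ∈ Insert.insert z X := mem_insert_of_mem z haX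
  refine ⟨?_, ?_⟩
  · rw [hb]
    refine h.bb_uniq hu (hsub (hY.hull_sub (hY.aa_mem hu))) ?_
    rw [← hb]
    exact le_of_gen h.pos (hY.aa_gen hu (subset_dual_dual D _ haY))
  · rw [hb]
    refine h.bb_uniq hu (hsub (hY.bb_mem u)) ?_
    rw [← hb]
    exact hY.bb_max u (hY.sub haY)

/-- the mean of the ball hull and the intersection of the balls -/
def mid (D : ℝ) (Y : Set E) : Set E :=
  {c | ∃ a ∈ dual D (dual D Y), ∃ b ∈ dual D Y, c = midpoint ℝ a b}

/-- its support point -/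
noncomputable def pp (D : ℝ) (Y : Set E) (u : E) : E := midpoint ℝ (aa D Y u) (bb D Y u)

theorem mid_eq (a b : E) : midpoint ℝ a b = (1 / 2 : ℝ) • (a + b) := by
  rw [midpoint_eq_smul_add]
  norm_num

theorem pp_neg (D : ℝ) (Y : Set E) (u : E) : pp D Y (-u) = pp D Y u - D • u := by
  simp only [pp, aa, mid_eq, neg_neg]
  module

theorem Sm.pp_mem (h : Sm D Y) (hu : ‖u‖ = 1) : pp D Y u ∈ mid D Y :=
  ⟨_, h.aa_mem hu, _, h.bb_mem u, rfl⟩

theorem mid_dist {c c' : E} (hc : c ∈ mid D Y) (hc' : c' ∈ mid D Y) : ‖c - c'‖ ≤ D := by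
  obtain ⟨a, ha, b, hb, rfl⟩ := hc
  obtain ⟨a', ha', b', hb', rfl⟩ := hc'
  have e : midpoint ℝ a b - midpoint ℝ a' b' = (1 / 2 : ℝ) • ((a - b') - (a' - b)) := by
    simp only [mid_eq]
    module
  rw [e, norm_smul]
  have h1 := norm_sub_le (a - b') (a' - b)
  have h2 := ha b' hb'
  have h3 := ha' b hb
  norm_num
  linarith

theorem convex_mid (D : ℝ) (Y : Set E) : Convex ℝ (mid D Y) := by
  rintro _ ⟨a, ha, b, hb, rfl⟩ _ ⟨a', ha', b', hb', rfl⟩ s t hs ht hst
  refine ⟨_, convex_dual D _ ha ha' hs ht hst, _, convex_dual D _ hb hb' hs ht hst, ?_⟩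
  simp only [mid_eq]
  module

theorem Sm.sub_mid (h : Sm D Y) : Y ⊆ mid D Y :=
  fun y hy => ⟨y, subset_dual_dual D Y hy, y, h.sub hy, (midpoint_self ℝ y).symm⟩

theorem Sm.aa_eq (h : Sm D Y) (hu : ‖u‖ = 1) (hv : ‖v‖ = 1)
    (H : ⟪u, pp D Y u - pp D Y v⟫ = 0) : aa D Y u = aa D Y v := by
  have h1 := h.aa_gen hu (h.aa_mem hv)
  have h2 := h.bb_max u (h.bb_mem v)
  simp only [pp, mid_eq, inner_sub_right, inner_smul_right, inner_add_right] at H
  exact (eq_of_gen h.pos h1 (by linarith)).symm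

theorem Sm.pp_le (h : Sm D Y) (hu : ‖u‖ = 1) (hv : ‖v‖ = 1) :
    0 ≤ ⟪u, pp D Y u - pp D Y v⟫ := by
  have h1 := le_of_gen h.pos (h.aa_gen hu (h.aa_mem hv))
  have h2 := h.bb_max u (h.bb_mem v)
  simp only [pp, mid_eq, inner_sub_right, inner_smul_right, inner_add_right]
  linarith

theorem Sm.continuousOn_pp (h : Sm D X) (hu : ‖u‖ = 1) :
    ContinuousOn (fun z => pp D (Insert.insert z X) u) (dual D X) := by
  simp only [pp, aa, mid_eq]
  exact (((h.continuousOn_bb (by rw [norm_neg, hu])).add continuousOn_const).add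
    (h.continuousOn_bb hu)).const_smul _

theorem dual_image (g : E ≃ᵢ E) (D : ℝ) (Y : Set E) : dual D (g '' Y) = g '' dual D Y := by
  ext w
  obtain ⟨w, rfl⟩ := g.surjective w
  rw [g.injective.mem_set_image]
  simp only [dual, mem_ofPred_eq, forall_mem_image, ← dist_eq_norm, g.dist_eq]

theorem mid_image (g : E ≃ᵢ E) {c : E} (hc : c ∈ mid D Y) : g c ∈ mid D (g '' Y) := by
  obtain ⟨a, ha, b, hb, rfl⟩ := hc
  refine ⟨g a, ?_, g b, ?_, g.map_midpoint a b⟩
  · rw [dual_image, dual_image]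
    exact mem_image_of_mem g ha
  · rw [dual_image]
    exact mem_image_of_mem g hb

theorem interior_dual (h : Sm D X) {x y : E} (hx : x ∈ X) (hy : y ∈ X) (hxy : ‖x - y‖ = D) :
    (interior (dual D X)).Nonempty := by
  refine ⟨midpoint ℝ x y, mem_interior_iff_mem_nhds.2 (Filter.mem_of_superset
    (closedBall_mem_nhds _ (by linarith [h.pos] : 0 < D / 8)) fun w hw z hz => ?_)⟩
  rw [mem_closedBall, dist_eq_norm] at hw
  have h1 := norm_combo_sq (x - z) (y - z) (1 / 2)
  have e1 : (1 - 1 / 2 : ℝ) • (x - z) + (1 / 2 : ℝ) • (y - z) = midpoint ℝ x y - z := by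
    rw [mid_eq]
    module
  have e2 : y - z - (x - z) = -(x - y) := by abel
  rw [e1, e2, norm_neg, hxy] at h1
  have h2 : ‖x - z‖ ^ 2 ≤ D ^ 2 := pow_le_pow_left₀ (norm_nonneg _) (h.sub hx z hz) 2
  have h3 : ‖y - z‖ ^ 2 ≤ D ^ 2 := pow_le_pow_left₀ (norm_nonneg _) (h.sub hy z hz) 2
  have h4 : ‖midpoint ℝ x y - z‖ ≤ 7 / 8 * D := by
    rw [← sq_le_sq₀ (norm_nonneg _) (by linarith [h.pos])]
    nlinarith [sq_nonneg D]
  have e3 : w - z = (w - midpoint ℝ x y) + (midpoint ℝ x y - z) := by abel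
  rw [e3]
  linarith [norm_add_le (w - midpoint ℝ x y) (midpoint ℝ x y - z)]

theorem exists_measure [MeasurableSpace E] [BorelSpace E] {K : Set E} (hK : IsCompact K)
    (hc : Convex ℝ K) (hi : (interior K).Nonempty) :
    ∃ ν : Measure E, IsProbabilityMeasure ν ∧ (∀ᵐ z ∂ν, z ∈ K) ∧
      (∀ f : E → E, ContinuousOn f K → Integrable f ν) ∧
      (∀ F : E → ℝ, ContinuousOn F K → (∀ z ∈ K, 0 ≤ F z) → ∫ z, F z ∂ν = 0 → ∀ z ∈ K, F z = 0) ∧
      ∀ g : E ≃ᵢ E, g '' K = K → MeasurePreserving g ν ν := by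
  set μ : Measure E := Measure.hausdorffMeasure (Module.finrank ℝ E) with hμ
  have : μ.IsAddHaarMeasure := isAddHaarMeasure_hausdorffMeasure
  have h0 : μ K ≠ 0 := ((isOpen_interior.measure_pos μ hi).trans_le
    (measure_mono interior_subset)).ne'
  have h1 : μ K ≠ ⊤ := hK.measure_lt_top.ne
  have hm := hK.measurableSet
  refine ⟨(μ K)⁻¹ • μ.restrict K, ⟨?_⟩, ?_, ?_, ?_, ?_⟩
  · rw [Measure.smul_apply, Measure.restrict_apply_univ, smul_eq_mul, ENNReal.inv_mul_cancel h0 h1]
  · exact Measure.ae_smul_measure (ae_restrict_mem hm) _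
  · intro f hf
    exact (hf.integrableOn_compact hK).smul_measure (ENNReal.inv_ne_top.2 h0)
  · intro F hF hF0 hint
    rw [integral_smul_measure, smul_eq_zero] at hint
    have h2 : ∫ z in K, F z ∂μ = 0 := hint.resolve_left (by
      rw [ENNReal.toReal_eq_zero_iff, not_or]
      exact ⟨ENNReal.inv_ne_zero.2 h1, ENNReal.inv_ne_top.2 h0⟩)
    rw [integral_eq_zero_iff_of_nonneg_ae
      ((ae_restrict_mem hm).mono fun z hz => hF0 z hz) (hF.integrableOn_compact hK)] at h2
    refine Measure.eqOn_of_ae_eq h2 hF continuousOn_const ?_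
    rw [hc.closure_interior_eq_closure_of_nonempty_interior hi]
    exact subset_closure
  · intro g hg
    have h3 := (g.measurePreserving_hausdorffMeasure (Module.finrank ℝ E)).restrict_preimage hm
    have h4 : g ⁻¹' K = K := by
      conv_lhs => rw [← hg]
      exact g.injective.preimage_image K
    rw [h4] at h3
    exact h3.smul_measure _

/-- **Regular completion.** -/
theorem exists_regular (h : Sm D X) {x y : E} (hx : x ∈ X) (hy : y ∈ X) (hxy : ‖x - y‖ = D) :
    ∃ C : Set E, IsCompact C ∧ Convex ℝ C ∧ X ⊆ C ∧ C ⊆ dual D C ∧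
      (∃ p : E → E, (∀ u, ‖u‖ = 1 → p u ∈ C ∧ p u - D • u ∈ C) ∧
        ∀ u v, ‖u‖ = 1 → ‖v‖ = 1 → u ≠ v → p u = p v → p u ∈ X) ∧
      ∀ g : E ≃ᵢ E, g '' X = X → g '' C = C := by
  borelize E
  have := FiniteDimensional.proper_real E
  obtain ⟨ν, hν, hae, hint, hzero, hinv⟩ := exists_measure (isCompact_dual D h.ne)
    (convex_dual D X) (interior_dual h hx hy hxy)
  set S : Set E := {c | ∃ f : E → E, ContinuousOn f (dual D X) ∧
    (∀ z ∈ dual D X, f z ∈ mid D (Insert.insert z X)) ∧ c = ∫ z, f z ∂ν} with hS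
  have hXS : X ⊆ S := fun a ha => ⟨fun _ => a, continuousOn_const,
    fun z hz => (h.insert hz).sub_mid (mem_insert_of_mem z ha), by simp⟩
  have hdist : ∀ c ∈ S, ∀ c' ∈ S, ‖c - c'‖ ≤ D := by
    rintro _ ⟨f, hf, hfm, rfl⟩ _ ⟨f', hf', hfm', rfl⟩
    rw [← integral_sub (hint f hf) (hint f' hf')]
    have h1 := norm_integral_le_of_norm_le_const (μ := ν) (f := fun z => f z - f' z) (C := D)
      (hae.mono fun z hz => mid_dist (hfm z hz) (hfm' z hz))
    simpa using h1
  have hconv : Convex ℝ S := by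
    rintro _ ⟨f, hf, hfm, rfl⟩ _ ⟨f', hf', hfm', rfl⟩ s t hs ht hst
    refine ⟨fun z => s • f z + t • f' z, (hf.const_smul s).add (hf'.const_smul t),
      fun z hz => convex_mid D _ (hfm z hz) (hfm' z hz) hs ht hst, ?_⟩
    rw [← integral_smul, ← integral_smul]
    exact (integral_add ((hint f hf).smul s) ((hint f' hf').smul t)).symm
  have hmaps : ∀ g : E ≃ᵢ E, g '' X = X → MapsTo g (closure S) (closure S) := by
    intro g hg
    have hgK : g '' dual D X = dual D X := by rw [← dual_image, hg]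
    have hsymm : MapsTo g.symm (dual D X) (dual D X) := by
      intro z hz
      rw [← hgK] at hz
      obtain ⟨w, hw, rfl⟩ := hz
      rwa [g.symm_apply_apply]
    refine MapsTo.closure ?_ g.continuous
    rintro _ ⟨f, hf, hfm, rfl⟩
    refine ⟨fun z => g (f (g.symm z)), g.continuous.comp_continuousOn
      (hf.comp g.symm.continuous.continuousOn hsymm), fun z hz => ?_, ?_⟩
    · have h1 := mid_image g (hfm _ (hsymm hz))
      rwa [image_insert_eq, g.apply_symm_apply, hg] at h1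
    · rw [← (hinv g hgK).integral_comp g.toHomeomorph.measurableEmbedding
        (fun z => g (f (g.symm z)))]
      simp only [g.symm_apply_apply]
      have e : ∀ w, g w = g.toRealLinearIsometryEquiv w + g 0 := fun w => by
        rw [g.toRealLinearIsometryEquiv_apply, sub_add_cancel]
      rw [e, integral_congr_ae (Filter.Eventually.of_forall fun z => e (f z)), integral_add,
        integral_const]
      · simp only [probReal_univ, one_smul, add_left_inj]
        exact (g.toRealLinearIsometryEquiv.toLinearIsometry.integral_comp_comm f).symm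
      · exact g.toRealLinearIsometryEquiv.toContinuousLinearEquiv.toContinuousLinearMap.integrable_comp
          (hint f hf)
      · exact integrable_const _
  have hp : ∀ u, ‖u‖ = 1 → ∫ z, pp D (Insert.insert z X) u ∂ν ∈ S := fun u hu =>
    ⟨_, h.continuousOn_pp hu, fun z hz => (h.insert hz).pp_mem hu, rfl⟩
  have hdist' : closure S ⊆ dual D (closure S) := by
    intro c hc c' hc'
    have h1 : (c, c') ∈ closure (S ×ˢ S) := by rw [closure_prod_eq]; exact ⟨hc, hc'⟩
    exact closure_minimal (t := {q : E × E | ‖q.1 - q.2‖ ≤ D})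
      (fun q hq => hdist _ hq.1 _ hq.2) (isClosed_le (by fun_prop) continuous_const) h1
  refine ⟨closure S, ?_, hconv.closure, hXS.trans subset_closure, hdist',
    ⟨fun u => ∫ z, pp D (Insert.insert z X) u ∂ν, fun u hu => ⟨subset_closure (hp u hu), ?_⟩, ?_⟩,
    fun g hg => ?_⟩
  · exact (isCompact_dual D ⟨x, subset_closure (hXS hx)⟩).of_isClosed_subset isClosed_closure hdist'
  · have h1 := hp (-u) (by rw [norm_neg, hu])
    simp only [pp_neg] at h1
    rw [integral_sub (hint _ (h.continuousOn_pp hu)) (integrable_const _), integral_const] at h1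
    simp only [probReal_univ, one_smul] at h1
    exact subset_closure h1
  · intro u v hu hv huv H
    have h1 := hzero (fun z => ⟪u, pp D (Insert.insert z X) u - pp D (Insert.insert z X) v⟫)
      (continuousOn_const.inner ((h.continuousOn_pp hu).sub (h.continuousOn_pp hv)))
      (fun z hz => (h.insert hz).pp_le hu hv) (by
        rw [integral_inner (f := fun z => pp D (Insert.insert z X) u - pp D (Insert.insert z X) v)
          ((hint _ (h.continuousOn_pp hu)).sub (hint _ (h.continuousOn_pp hv))),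
          integral_sub (hint _ (h.continuousOn_pp hu)) (hint _ (h.continuousOn_pp hv))]
        beta_reduce at H
        rw [H, sub_self, inner_zero_right])
    obtain ⟨h2, h3⟩ := h.rigid hu hv huv fun z hz => (h.insert hz).aa_eq hu hv (h1 z hz)
    have h4 : ∫ z, pp D (Insert.insert z X) u ∂ν = ∫ _, aa D X u ∂ν :=
      integral_congr_ae (hae.mono fun z hz => by
        simp only [pp, (h3 z hz).1, (h3 z hz).2, midpoint_self])
    beta_reduce
    rw [h4, integral_const]
    simpa using h2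
  · refine (hmaps g hg).image_subset.antisymm fun c hc => ⟨g.symm c, hmaps g.symm ?_ hc,
      g.apply_symm_apply c⟩
    conv_lhs => rw [← hg]
    rw [image_image]
    simp

end Vale.Agent.N052.CW
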