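import Mathlib

/-!
# P052: intersections of balls of a fixed radius and their support points
-/

set_option linter.unusedSectionVars false

namespace Vale.Agent.N052.CW

open Set Metric
open scoped RealInnerProductSpace

variable {E : Type*} [NormedAddCommGroup E] [InnerProductSpace ℝ E]

/-- the points within distance `D` of all points of `Y` -/
def dual (D : ℝ) (Y : Set E) : Set E := {w | ∀ y ∈ Y, ‖w - y‖ ≤ D}

theorem dual_anti {D : ℝ} {Y Z : Set E} (h : Y ⊆ Z) : dual D Z ⊆ dual D Y :=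
  fun _ hw y hy => hw y (h hy)

theorem subset_dual_dual (D : ℝ) (Y : Set E) : Y ⊆ dual D (dual D Y) :=
  fun y hy w hw => by rw [norm_sub_rev]; exact hw y hy

theorem dual_eq (D : ℝ) (Y : Set E) : dual D Y = ⋂ y ∈ Y, closedBall y D := by
  ext w
  simp [dual, dist_eq_norm]

theorem convex_dual (D : ℝ) (Y : Set E) : Convex ℝ (dual D Y) := by
  rw [dual_eq]
  exact convex_iInter₂ fun y _ => convex_closedBall y D

theorem isClosed_dual (D : ℝ) (Y : Set E) : IsClosed (dual D Y) := by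
  rw [dual_eq]
  exact isClosed_biInter fun y _ => isClosed_closedBall

theorem isCompact_dual [FiniteDimensional ℝ E] (D : ℝ) {Y : Set E} (hY : Y.Nonempty) :
    IsCompact (dual D Y) := by
  obtain ⟨y, hy⟩ := hY
  have := FiniteDimensional.proper_real E
  refine (isCompact_closedBall y D).of_isClosed_subset (isClosed_dual D Y) fun w hw => ?_
  rw [mem_closedBall, dist_eq_norm]
  exact hw y hy

theorem norm_shift_sq {u : E} (hu : ‖u‖ = 1) (v : E) (D : ℝ) :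
    ‖v + D • u‖ ^ 2 = ‖v‖ ^ 2 + 2 * D * ⟪u, v⟫ + D ^ 2 := by
  rw [norm_add_sq_real, inner_smul_right, norm_smul, hu, mul_one, Real.norm_eq_abs, sq_abs,
    real_inner_comm]
  ring

theorem norm_shift_le {u : E} (hu : ‖u‖ = 1) {D : ℝ} (hD : 0 < D) (w p : E) :
    ‖w - (p - D • u)‖ ≤ D ↔ ‖w - p‖ ^ 2 + 2 * D * ⟪u, w - p⟫ ≤ 0 := by
  have h : w - (p - D • u) = (w - p) + D • u := by abel
  rw [h, ← sq_le_sq₀ (norm_nonneg _) hD.le, norm_shift_sq hu]
  constructor <;> intro h <;> linarith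

theorem norm_combo_sq (a b : E) (t : ℝ) :
    ‖(1 - t) • a + t • b‖ ^ 2 = (1 - t) * ‖a‖ ^ 2 + t * ‖b‖ ^ 2 - t * (1 - t) * ‖b - a‖ ^ 2 := by
  simp only [← real_inner_self_eq_norm_sq, inner_add_left, inner_add_right, inner_sub_left,
    inner_sub_right, inner_smul_left, inner_smul_right, real_inner_comm a b, conj_trivial]
  ring

/-- An intersection of balls of radius `D` lies in the ball of radius `D` which touches it at a
support point. -/
theorem gen {D : ℝ} (hD : 0 < D) {Y : Set E} {u p : E} (hu : ‖u‖ = 1) (hp : p ∈ dual D Y)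
    (hmax : ∀ w ∈ dual D Y, ⟪u, w⟫ ≤ ⟪u, p⟫) {w : E} (hw : w ∈ dual D Y) :
    ‖w - p‖ ^ 2 + 2 * D * ⟪u, w - p⟫ ≤ 0 := by
  set r := ‖w - p‖ ^ 2 with hr
  have hr0 : 0 ≤ r := sq_nonneg _
  have key : ∀ t : ℝ, 0 < t → t < 1 → (1 - t) * r + 2 * D * ⟪u, w - p⟫ ≤ 0 := by
    intro t ht0 ht1
    set s := t * (1 - t) * r / (2 * D) with hs
    have h2D : 0 < 2 * D := by linarith
    have hs0 : 0 ≤ s := div_nonneg (mul_nonneg (mul_nonneg ht0.le (by linarith)) hr0) h2D.le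
    have hsD : 2 * D * s = t * (1 - t) * r := by rw [hs]; field_simp
    have hmem : (1 - t) • p + t • w + s • u ∈ dual D Y := by
      intro y hy
      have e1 : (1 - t) • p + t • w + s • u - y = ((1 - t) • (p - y) + t • (w - y)) + s • u := by
        module
      have h1 := norm_combo_sq (p - y) (w - y) t
      have e2 : w - y - (p - y) = w - p := by abel
      rw [e2, ← hr] at h1
      have h2 : ‖p - y‖ ^ 2 ≤ D ^ 2 := pow_le_pow_left₀ (norm_nonneg _) (hp y hy) 2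
      have h3 : ‖w - y‖ ^ 2 ≤ D ^ 2 := pow_le_pow_left₀ (norm_nonneg _) (hw y hy) 2
      set m := ‖(1 - t) • (p - y) + t • (w - y)‖ with hm
      have hm0 : 0 ≤ m := norm_nonneg _
      have h4 : m ^ 2 ≤ D ^ 2 - 2 * D * s := by
        rw [h1, hsD]
        nlinarith [mul_le_mul_of_nonneg_left h2 (by linarith : (0 : ℝ) ≤ 1 - t),
          mul_le_mul_of_nonneg_left h3 ht0.le]
      have h5 : s ≤ D := by nlinarith [sq_nonneg m]
      have h6 : m ≤ D - s := by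
        rw [← sq_le_sq₀ hm0 (by linarith)]
        nlinarith [sq_nonneg s]
      rw [e1]
      refine (norm_add_le _ _).trans ?_
      rw [norm_smul, hu, mul_one, Real.norm_eq_abs, abs_of_nonneg hs0]
      linarith
    have h7 := hmax _ hmem
    have h8 : ⟪u, u⟫ = (1 : ℝ) := by rw [real_inner_self_eq_norm_sq, hu]; norm_num
    simp only [inner_add_right, inner_smul_right, h8] at h7
    rw [inner_sub_right]
    have h9 : t * ((1 - t) * r + 2 * D * (⟪u, w⟫ - ⟪u, p⟫)) ≤ 0 := by nlinarith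
    by_contra hcon
    push Not at hcon
    nlinarith [mul_pos ht0 hcon]
  by_contra hcon
  push Not at hcon
  set c := r + 2 * D * ⟪u, w - p⟫ with hc
  have ht : 0 < c / (2 * (r + c)) := by positivity
  have ht1 : c / (2 * (r + c)) < 1 := by
    rw [div_lt_one (by positivity)]
    linarith
  have h1 := key _ ht ht1
  have h2 : c / (2 * (r + c)) * r < c := by
    rw [div_mul_eq_mul_div, div_lt_iff₀ (by positivity)]
    nlinarith
  linarith

/-- A point of the ball hull with two touching balls belongs to the compact set. -/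
theorem mem_of_two {D : ℝ} (hD : 0 < D) {Y : Set E} (hY : IsCompact Y) (hne : Y.Nonempty)
    {a u v : E} (hu : ‖u‖ = 1) (hv : ‖v‖ = 1) (huv : u ≠ v) (ha : a ∈ dual D (dual D Y))
    (h1 : a - D • u ∈ dual D Y) (h2 : a - D • v ∈ dual D Y) : a ∈ Y := by
  by_contra hcon
  obtain ⟨y₀, hy₀, hmin⟩ := hY.exists_isMinOn hne
    (continuous_id.sub (continuous_const (y := a))).norm.continuousOn
  set δ := ‖y₀ - a‖ with hδ
  have hδ0 : 0 < δ := norm_pos_iff.2 (sub_ne_zero.2 fun h => hcon (h ▸ hy₀))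
  have hkey : ∀ y ∈ Y, ‖y - a‖ ^ 2 + D * ⟪u + v, y - a⟫ ≤ 0 := by
    intro y hy
    have e1 := (norm_shift_le hu hD y a).1 (by rw [norm_sub_rev]; exact h1 y hy)
    have e2 := (norm_shift_le hv hD y a).1 (by rw [norm_sub_rev]; exact h2 y hy)
    rw [inner_add_left]
    linarith
  set s := ‖u + v‖ with hs
  have hs2 : s < 2 := by
    have e1 := parallelogram_law_with_norm ℝ u v
    have e2 : 0 < ‖u - v‖ := norm_pos_iff.2 (sub_ne_zero.2 huv)
    rw [hu, hv, ← hs] at e1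
    nlinarith [norm_nonneg (u + v)]
  rcases (norm_nonneg (u + v)).eq_or_lt with hs0 | hs0
  · have e1 := hkey y₀ hy₀
    rw [norm_eq_zero.1 hs0.symm, inner_zero_left] at e1
    nlinarith
  rw [← hs] at hs0
  have hF : Continuous fun t : ℝ => t ^ 2 * s ^ 2 - (2 * t / D - 1) * δ ^ 2 - D ^ 2 := by
    fun_prop
  have hF0 : (D / s) ^ 2 * s ^ 2 - (2 * (D / s) / D - 1) * δ ^ 2 - D ^ 2 < 0 := by
    have e1 : (D / s) ^ 2 * s ^ 2 = D ^ 2 := by field_simp
    have e2 : 2 * (D / s) / D - 1 = (2 - s) / s := by field_simp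
    rw [e1, e2]
    have : 0 < (2 - s) / s * δ ^ 2 := by
      have : 0 < 2 - s := by linarith
      positivity
    linarith
  obtain ⟨t, ht1, ht2⟩ : ∃ t, D / s < t ∧ t ^ 2 * s ^ 2 - (2 * t / D - 1) * δ ^ 2 - D ^ 2 < 0 := by
    have h := (hF.tendsto (D / s)).eventually (gt_mem_nhds hF0)
    obtain ⟨t, ht, ht'⟩ := ((h.filter_mono nhdsWithin_le_nhds).and
      (self_mem_nhdsWithin (s := Ioi (D / s)))).exists
    exact ⟨t, ht', ht⟩
  have hts : D < t * s := by rwa [div_lt_iff₀ hs0] at ht1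
  have ht0 : 0 < t := lt_trans (by positivity) ht1
  have ht3 : 0 < 2 * t / D - 1 := by
    rw [sub_pos, lt_div_iff₀ hD]
    nlinarith
  have hz : a - t • (u + v) ∈ dual D Y := by
    intro y hy
    have e1 := hkey y hy
    have e2 : δ ^ 2 ≤ ‖y - a‖ ^ 2 := pow_le_pow_left₀ hδ0.le (hmin hy) 2
    have e3 : a - t • (u + v) - y = -((y - a) + t • (u + v)) := by abel
    rw [e3, norm_neg, ← sq_le_sq₀ (norm_nonneg _) hD.le, norm_add_sq_real, inner_smul_right,
      norm_smul, Real.norm_eq_abs, abs_of_pos ht0, ← hs, real_inner_comm]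
    have e4 : ⟪u + v, y - a⟫ ≤ -(‖y - a‖ ^ 2 / D) := by
      rw [le_neg, div_le_iff₀ hD]
      linarith
    have e5 : 2 * (t * ⟪u + v, y - a⟫) ≤ -(2 * t / D * ‖y - a‖ ^ 2) := by
      have := mul_le_mul_of_nonneg_left e4 ht0.le
      have e6 : t * -(‖y - a‖ ^ 2 / D) * 2 = -(2 * t / D * ‖y - a‖ ^ 2) := by ring
      linarith
    nlinarith [mul_le_mul_of_nonneg_left e2 ht3.le]
  have e7 := ha _ hz
  have e8 : a - (a - t • (u + v)) = t • (u + v) := by abel
  rw [e8, norm_smul, Real.norm_eq_abs, abs_of_pos ht0, ← hs] at e7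
  linarith

open Classical in
/-- a point of `A` at which `⟪u, ·⟫` is maximal -/
noncomputable def top (A : Set E) (u : E) : E :=
  if h : ∃ p ∈ A, ∀ w ∈ A, ⟪u, w⟫ ≤ ⟪u, p⟫ then h.choose else 0

theorem top_spec {A : Set E} (hA : IsCompact A) (hne : A.Nonempty) (u : E) :
    top A u ∈ A ∧ ∀ w ∈ A, ⟪u, w⟫ ≤ ⟪u, top A u⟫ := by
  have h : ∃ p ∈ A, ∀ w ∈ A, ⟪u, w⟫ ≤ ⟪u, p⟫ := by
    obtain ⟨p, hp, h⟩ := hA.exists_isMaxOn hne
      (f := fun w => ⟪u, w⟫) (continuous_const.inner continuous_id).continuousOn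
    exact ⟨p, hp, fun w hw => h hw⟩
  rw [top, dif_pos h]
  exact h.choose_spec

/-- `Y` is compact, nonempty, and all its distances are at most `D`. -/
structure Sm (D : ℝ) (Y : Set E) : Prop where
  pos : 0 < D
  cpt : IsCompact Y
  ne : Y.Nonempty
  sub : Y ⊆ dual D Y

/-- the support point of the intersection of the balls -/
noncomputable def bb (D : ℝ) (Y : Set E) (u : E) : E := top (dual D Y) u

/-- the support point of the ball hull -/
noncomputable def aa (D : ℝ) (Y : Set E) (u : E) : E := bb D Y (-u) + D • u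

variable [FiniteDimensional ℝ E] {D : ℝ} {Y : Set E} {u v : E}

theorem Sm.bb_mem (h : Sm D Y) (u : E) : bb D Y u ∈ dual D Y :=
  (top_spec (isCompact_dual D h.ne) (h.ne.mono h.sub) u).1

theorem Sm.bb_max (h : Sm D Y) (u : E) {w : E} (hw : w ∈ dual D Y) : ⟪u, w⟫ ≤ ⟪u, bb D Y u⟫ :=
  (top_spec (isCompact_dual D h.ne) (h.ne.mono h.sub) u).2 w hw

theorem Sm.bb_gen (h : Sm D Y) (hu : ‖u‖ = 1) {w : E} (hw : w ∈ dual D Y) :
    ‖w - bb D Y u‖ ^ 2 + 2 * D * ⟪u, w - bb D Y u⟫ ≤ 0 :=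
  gen h.pos hu (h.bb_mem u) (fun _ hw => h.bb_max u hw) hw

theorem eq_of_gen (hD : 0 < D) {w p : E} (h : ‖w - p‖ ^ 2 + 2 * D * ⟪u, w - p⟫ ≤ 0)
    (h2 : ⟪u, p⟫ ≤ ⟪u, w⟫) : w = p := by
  rw [inner_sub_right] at h
  have h3 : ‖w - p‖ ^ 2 ≤ 0 := by nlinarith [mul_nonneg hD.le (sub_nonneg.2 h2)]
  exact sub_eq_zero.1 (norm_eq_zero.1 (pow_eq_zero_iff two_ne_zero |>.1
    (le_antisymm h3 (sq_nonneg _))))

theorem Sm.bb_uniq (h : Sm D Y) (hu : ‖u‖ = 1) {w : E} (hw : w ∈ dual D Y)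
    (h2 : ⟪u, bb D Y u⟫ ≤ ⟪u, w⟫) : w = bb D Y u :=
  eq_of_gen h.pos (h.bb_gen hu hw) h2

theorem Sm.aa_sub (h : Sm D Y) (u : E) : aa D Y u - D • u ∈ dual D Y := by
  rw [aa, add_sub_cancel_right]
  exact h.bb_mem _

theorem Sm.aa_mem (h : Sm D Y) (hu : ‖u‖ = 1) : aa D Y u ∈ dual D (dual D Y) := by
  intro w hw
  have hu' : ‖-u‖ = 1 := by rw [norm_neg, hu]
  have h1 := (norm_shift_le hu' h.pos w _).2 (h.bb_gen hu' hw)
  rw [norm_sub_rev, aa]
  rwa [smul_neg, sub_neg_eq_add] at h1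

theorem Sm.aa_gen (h : Sm D Y) (hu : ‖u‖ = 1) {w : E} (hw : w ∈ dual D (dual D Y)) :
    ‖w - aa D Y u‖ ^ 2 + 2 * D * ⟪u, w - aa D Y u⟫ ≤ 0 :=
  (norm_shift_le hu h.pos w _).1 (hw _ (h.aa_sub u))

theorem le_of_gen (hD : 0 < D) {w p : E} (h : ‖w - p‖ ^ 2 + 2 * D * ⟪u, w - p⟫ ≤ 0) :
    ⟪u, w⟫ ≤ ⟪u, p⟫ := by
  rw [inner_sub_right] at h
  by_contra hcon
  push Not at hcon
  nlinarith [mul_pos hD (sub_pos.2 hcon), sq_nonneg ‖w - p‖]

theorem Sm.hull_sub (h : Sm D Y) : dual D (dual D Y) ⊆ dual D Y := dual_anti h.sub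

theorem Sm.insert (h : Sm D Y) {z : E} (hz : z ∈ dual D Y) : Sm D (insert z Y) := by
  refine ⟨h.pos, h.cpt.insert z, insert_nonempty z Y, ?_⟩
  rintro a (rfl | ha) b (rfl | hb)
  · rw [sub_self, norm_zero]; exact h.pos.le
  · exact hz b hb
  · rw [norm_sub_rev]; exact hz a ha
  · exact h.sub ha b hb

theorem mem_dual_insert {z w : E} : w ∈ dual D (insert z Y) ↔ w ∈ dual D Y ∧ ‖w - z‖ ≤ D := by
  simp only [dual, mem_ofPred_eq, forall_mem_insert, and_comm]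

/-- moving the extra point moves the support point continuously -/
theorem Sm.bb_near (h : Sm D Y) (hu : ‖u‖ = 1) {z₀ z₁ : E} (h₀ : z₀ ∈ dual D Y)
    (hδ : ‖z₀ - z₁‖ ≤ D) : ∃ w ∈ dual D (Insert.insert z₁ Y),
      ‖w - bb D (Insert.insert z₀ Y) u‖ ≤ ‖z₀ - z₁‖ := by
  set b := bb D (Insert.insert z₀ Y) u with hb
  obtain ⟨hb1, hb2⟩ := mem_dual_insert.1 ((h.insert h₀).bb_mem u)
  rw [← hb] at hb1 hb2
  set t := ‖z₀ - z₁‖ / D with ht
  have ht0 : 0 ≤ t := div_nonneg (norm_nonneg _) h.pos.le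
  have ht1 : t ≤ 1 := (div_le_one h.pos).2 hδ
  have htD : t * D = ‖z₀ - z₁‖ := div_mul_cancel₀ _ h.pos.ne'
  refine ⟨(1 - t) • b + t • z₀, mem_dual_insert.2 ⟨convex_dual D Y hb1 h₀ (by linarith) ht0
    (by ring), ?_⟩, ?_⟩
  · have e : (1 - t) • b + t • z₀ - z₁ = (1 - t) • (b - z₀) + (z₀ - z₁) := by module
    rw [e]
    refine (norm_add_le _ _).trans ?_
    rw [norm_smul, Real.norm_eq_abs, abs_of_nonneg (by linarith)]
    nlinarith [mul_le_mul_of_nonneg_left hb2 (by linarith : (0 : ℝ) ≤ 1 - t)]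
  · have e : (1 - t) • b + t • z₀ - b = -(t • (b - z₀)) := by module
    rw [e, norm_neg, norm_smul, Real.norm_eq_abs, abs_of_nonneg ht0, ← htD]
    exact mul_le_mul_of_nonneg_left hb2 ht0

theorem Sm.bb_close (h : Sm D Y) (hu : ‖u‖ = 1) {z₀ z₁ : E} (h₀ : z₀ ∈ dual D Y)
    (h₁ : z₁ ∈ dual D Y) (hδ : ‖z₀ - z₁‖ ≤ D) :
    ‖bb D (Insert.insert z₁ Y) u - bb D (Insert.insert z₀ Y) u‖ ≤
      ‖z₀ - z₁‖ + √(4 * D * ‖z₀ - z₁‖) := by
  obtain ⟨w, hw, hw1⟩ := h.bb_near hu h₀ hδ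
  obtain ⟨w', hw', hw2⟩ := h.bb_near hu h₁ (z₁ := z₀) (by rwa [norm_sub_rev])
  rw [norm_sub_rev z₁ z₀] at hw2
  set b₀ := bb D (Insert.insert z₀ Y) u
  set b₁ := bb D (Insert.insert z₁ Y) u
  set δ := ‖z₀ - z₁‖
  have e1 := (h.insert h₁).bb_gen hu hw
  have e2 := (h.insert h₀).bb_max u hw'
  have e3 : -δ ≤ ⟪u, w - b₀⟫ := by
    have := abs_real_inner_le_norm u (w - b₀)
    rw [hu, one_mul] at this
    linarith [neg_abs_le ⟪u, w - b₀⟫]
  have e4 : -δ ≤ ⟪u, w' - b₁⟫ := by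
    have := abs_real_inner_le_norm u (w' - b₁)
    rw [hu, one_mul] at this
    linarith [neg_abs_le ⟪u, w' - b₁⟫]
  simp only [inner_sub_right] at e1 e3 e4
  have e5 : ‖w - b₁‖ ^ 2 ≤ 4 * D * δ := by nlinarith [h.pos]
  have e6 : ‖w - b₁‖ ≤ √(4 * D * δ) := Real.le_sqrt_of_sq_le e5
  have e7 : b₁ - b₀ = (w - b₀) - (w - b₁) := by abel
  rw [e7]
  exact (norm_sub_le _ _).trans (add_le_add hw1 e6)

theorem Sm.continuousOn_bb (h : Sm D Y) (hu : ‖u‖ = 1) :
    ContinuousOn (fun z => bb D (Insert.insert z Y) u) (dual D Y) := by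
  intro z₀ h₀
  rw [ContinuousWithinAt, tendsto_iff_norm_sub_tendsto_zero]
  have hc : Continuous fun z : E => ‖z₀ - z‖ + √(4 * D * ‖z₀ - z‖) := by fun_prop
  have h1 : Filter.Tendsto (fun z : E => ‖z₀ - z‖ + √(4 * D * ‖z₀ - z‖)) (nhdsWithin z₀ (dual D Y))
      (nhds 0) := by
    have := hc.tendsto z₀
    simp only [sub_self, norm_zero, mul_zero, Real.sqrt_zero, add_zero] at this
    exact this.mono_left nhdsWithin_le_nhds
  refine squeeze_zero' (Filter.Eventually.of_forall fun _ => norm_nonneg _) ?_ h1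
  have h2 : ∀ᶠ z in nhdsWithin z₀ (dual D Y), ‖z₀ - z‖ ≤ D := by
    refine Filter.Eventually.filter_mono nhdsWithin_le_nhds ?_
    filter_upwards [closedBall_mem_nhds z₀ h.pos] with z hz
    rwa [mem_closedBall, dist_comm, dist_eq_norm] at hz
  filter_upwards [h2, self_mem_nhdsWithin] with z hz hz'
  exact h.bb_close hu h₀ hz' hz

end Vale.Agent.N052.CW
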