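import Vale.Agent.N052.CWNum

/-!
# P052: the complex projective plane in `ℝ⁸` has Borsuk number nine
-/

namespace Vale.Agent.N052.CW

open Set Metric Bornology Complex
open scoped ComplexConjugate

theorem real_cover {a b c : ℝ} (ha : 0 ≤ a) (hb : 0 ≤ b) (hc : 0 ≤ c)
    (h : a ^ 2 + b ^ 2 + c ^ 2 = 1) :
    201 / 16 ≤ 16 * a ^ 2 + 9 * b ^ 2 + 18 * (a * b) ∨
      201 / 16 ≤ 16 * b ^ 2 + 9 * c ^ 2 + 12 * (b * c) ∨
      201 / 16 ≤ 16 * c ^ 2 + 9 * a ^ 2 + 12 * (c * a) := by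
  by_contra hcon
  push Not at hcon
  obtain ⟨h0, h1, h2⟩ := hcon
  have g0 : 0 ≤ 201 / 16 * (a ^ 2 + b ^ 2 + c ^ 2) - (16 * a ^ 2 + 9 * b ^ 2 + 18 * (a * b)) := by
    rw [h]; linarith
  have g1 : 0 ≤ 201 / 16 * (a ^ 2 + b ^ 2 + c ^ 2) - (16 * b ^ 2 + 9 * c ^ 2 + 12 * (b * c)) := by
    rw [h]; linarith
  have g2 : 0 ≤ 201 / 16 * (a ^ 2 + b ^ 2 + c ^ 2) - (16 * c ^ 2 + 9 * a ^ 2 + 12 * (c * a)) := by
    rw [h]; linarith
  have hs : a ^ 3 + b ^ 3 + c ^ 3 ≤ 0 := by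
    nlinarith [mul_nonneg ha g0, mul_nonneg hb g0, mul_nonneg hb g1, mul_nonneg hc g1,
      mul_nonneg hc g2, mul_nonneg ha g2, mul_nonneg hb (sq_nonneg (a - b)),
      mul_nonneg hc (sq_nonneg (b - c)), mul_nonneg ha (sq_nonneg (c - 5 / 4 * a)),
      mul_nonneg (mul_nonneg ha hb) hc, mul_nonneg (mul_nonneg ha ha) hb,
      mul_nonneg (mul_nonneg ha ha) hc, mul_nonneg (mul_nonneg hb hb) ha,
      mul_nonneg (mul_nonneg hb hb) hc, mul_nonneg (mul_nonneg hc hc) ha,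
      mul_nonneg (mul_nonneg hc hc) hb, pow_nonneg ha 3, pow_nonneg hb 3, pow_nonneg hc 3]
  have a0 : a = 0 := pow_eq_zero_iff (n := 3) (by norm_num) |>.1
    (by linarith [pow_nonneg ha 3, pow_nonneg hb 3, pow_nonneg hc 3])
  have b0 : b = 0 := pow_eq_zero_iff (n := 3) (by norm_num) |>.1
    (by linarith [pow_nonneg ha 3, pow_nonneg hb 3, pow_nonneg hc 3])
  have c0 : c = 0 := pow_eq_zero_iff (n := 3) (by norm_num) |>.1
    (by linarith [pow_nonneg ha 3, pow_nonneg hb 3, pow_nonneg hc 3])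
  rw [a0, b0, c0] at h
  norm_num at h

/-- the cube roots of unity -/
noncomputable def rt : Fin 3 → ℂ := ![1, ⟨-1 / 2, √3 / 2⟩, ⟨-1 / 2, -(√3 / 2)⟩]

theorem s3 : (√3 : ℝ) ^ 2 = 3 := Real.sq_sqrt (by norm_num)

theorem normSq_rt (m : Fin 3) : normSq (rt m) = 1 := by
  fin_cases m <;> simp [rt, normSq_apply] <;> nlinarith [s3]

theorem exists_half (z : ℂ) : ∃ m, ‖z‖ / 2 ≤ (rt m * z).re := by
  by_contra hcon
  push Not at hcon
  have h0 := hcon 0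
  have h1 := hcon 1
  have h2 := hcon 2
  have h3 : ‖z‖ ^ 2 = z.re ^ 2 + z.im ^ 2 := by rw [Complex.sq_norm, normSq_apply]; ring
  simp [rt] at h0 h1 h2
  have h4 : 0 < ‖z‖ + z.re + √3 * z.im := by linarith
  have h5 : 0 < ‖z‖ + z.re - √3 * z.im := by linarith
  have h6 : (√3 * z.im) ^ 2 = 3 * z.im ^ 2 := by rw [mul_pow, s3]
  nlinarith [mul_pos h4 h5, mul_pos (by linarith : 0 < ‖z‖ + z.re) (by linarith : 0 < ‖z‖ - 2 * z.re)]

theorem re_cube (m : Fin 3) (z : ℂ) :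
    (z ^ 3).re = 4 * (rt m * z).re ^ 3 - 3 * (rt m * z).re * ‖z‖ ^ 2 := by
  have h3 : ‖z‖ ^ 2 = z.re ^ 2 + z.im ^ 2 := by rw [Complex.sq_norm, normSq_apply]; ring
  have h4 : (√3 : ℝ) ^ 3 = 3 * √3 := by rw [pow_succ, s3]
  rw [h3]
  fin_cases m <;> simp [rt, pow_succ] <;> ring_nf <;> simp only [s3, h4] <;> ring

theorem phase {p q r : ℂ} (hp : ‖p‖ = 1) (hq : ‖q‖ = 1) (hr : ‖r‖ = 1) (h : p * q * r = 1) :
    ∃ m, 3 / 4 ≤ (rt m * p).re ∨ 3 / 4 ≤ (rt m * q).re ∨ 3 / 4 ≤ (rt m * r).re := by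
  by_contra hcon
  push Not at hcon
  have key : ∀ z : ℂ, ‖z‖ = 1 → (∀ m, (rt m * z).re < 3 / 4) →
      (z ^ 3).re ≤ -(9 / 16) ∧ (z ^ 3).re ^ 2 + (z ^ 3).im ^ 2 = 1 := by
    intro z hz H
    obtain ⟨m, hm⟩ := exists_half z
    have h1 := re_cube m z
    rw [hz] at hm h1
    have h2 := H m
    refine ⟨?_, ?_⟩
    · nlinarith [mul_nonneg (sub_nonneg.2 h2.le)
        (by nlinarith : 0 ≤ 4 * (rt m * z).re ^ 2 + 3 * (rt m * z).re - 3 / 4)]
    · have h3 : ‖z ^ 3‖ ^ 2 = 1 := by rw [norm_pow, hz]; norm_num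
      rw [Complex.sq_norm, normSq_apply] at h3
      linarith
  obtain ⟨a1, a2⟩ := key p hp fun m => (hcon m).1
  obtain ⟨b1, b2⟩ := key q hq fun m => (hcon m).2.1
  obtain ⟨c1, c2⟩ := key r hr fun m => (hcon m).2.2
  have h1 : p ^ 3 * q ^ 3 = conj (r ^ 3) := by
    have h2 : r ^ 3 * conj (r ^ 3) = 1 := by
      rw [mul_conj, normSq_apply]
      exact_mod_cast (by linarith : (r ^ 3).re * (r ^ 3).re + (r ^ 3).im * (r ^ 3).im = 1)
    calc p ^ 3 * q ^ 3 = p ^ 3 * q ^ 3 * (r ^ 3 * conj (r ^ 3)) := by rw [h2, mul_one]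
      _ = (p * q * r) ^ 3 * conj (r ^ 3) := by ring
      _ = conj (r ^ 3) := by rw [h, one_pow, one_mul]
  have h3 := congrArg re h1
  rw [mul_re, conj_re] at h3
  generalize (p ^ 3).re = A, (p ^ 3).im = B, (q ^ 3).re = A', (q ^ 3).im = B' at *
  nlinarith [sq_nonneg (B - B'), mul_nonneg (by linarith : 0 ≤ -(9 / 16) - A)
    (by linarith : 0 ≤ -(9 / 16) - A')]

theorem phase' (x y z : ℂ) : ∃ m, 3 / 4 * (‖x‖ * ‖y‖) ≤ (rt m * (conj x * y)).re ∨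
    3 / 4 * (‖y‖ * ‖z‖) ≤ (rt m * (conj y * z)).re ∨
    3 / 4 * (‖z‖ * ‖x‖) ≤ (rt m * (conj z * x)).re := by
  by_cases hx : x = 0
  · exact ⟨0, Or.inl (by simp [hx])⟩
  by_cases hy : y = 0
  · exact ⟨0, Or.inl (by simp [hy])⟩
  by_cases hz : z = 0
  · exact ⟨0, Or.inr (Or.inl (by simp [hz]))⟩
  have key : ∀ x y : ℂ, x ≠ 0 → y ≠ 0 → ‖conj x * y / ((‖x‖ * ‖y‖ : ℝ) : ℂ)‖ = 1 ∧ ∀ m,
      3 / 4 ≤ (rt m * (conj x * y / ((‖x‖ * ‖y‖ : ℝ) : ℂ))).re →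
        3 / 4 * (‖x‖ * ‖y‖) ≤ (rt m * (conj x * y)).re := by
    intro x y hx hy
    have h0 : 0 < ‖x‖ * ‖y‖ := mul_pos (norm_pos_iff.2 hx) (norm_pos_iff.2 hy)
    refine ⟨?_, fun m hm => ?_⟩
    · rw [norm_div, norm_mul, norm_conj, norm_real, Real.norm_eq_abs, abs_of_pos h0, div_self h0.ne']
    · rwa [← mul_div_assoc, div_ofReal_re, le_div_iff₀ h0] at hm
  have n1 : ∀ x : ℂ, conj x * x = (‖x‖ : ℂ) ^ 2 := fun x => by
    rw [mul_comm, mul_conj, normSq_eq_norm_sq, ofReal_pow]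
  obtain ⟨m, hm⟩ := phase (key x y hx hy).1 (key y z hy hz).1 (key z x hz hx).1 (by
    have hx' : (‖x‖ : ℂ) ≠ 0 := by exact_mod_cast norm_ne_zero_iff.2 hx
    have hy' : (‖y‖ : ℂ) ≠ 0 := by exact_mod_cast norm_ne_zero_iff.2 hy
    have hz' : (‖z‖ : ℂ) ≠ 0 := by exact_mod_cast norm_ne_zero_iff.2 hz
    push_cast
    rw [div_mul_div_comm, div_mul_div_comm, div_eq_one_iff_eq (by simp [hx, hy, hz])]
    calc conj x * y * (conj y * z) * (conj z * x) = conj x * x * (conj y * y) * (conj z * z) := by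
          ring
      _ = _ := by rw [n1, n1, n1]; ring)
  exact ⟨m, hm.imp ((key x y hx hy).2 m) (Or.imp ((key y z hy hz).2 m) ((key z x hz hx).2 m))⟩

theorem norm_comb (m : Fin 3) (x y : ℂ) : ‖4 * x + 3 * (rt m * y)‖ ^ 2 =
    16 * ‖x‖ ^ 2 + 9 * ‖y‖ ^ 2 + 24 * (rt m * (conj x * y)).re := by
  have h := normSq_rt m
  rw [normSq_apply] at h
  simp only [Complex.sq_norm, normSq_apply]
  simp
  linear_combination (9 * (y.re ^ 2 + y.im ^ 2)) * h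

theorem cx_cover (x y z : ℂ) (h : ‖x‖ ^ 2 + ‖y‖ ^ 2 + ‖z‖ ^ 2 = 1) :
    ∃ m, 201 / 16 ≤ ‖4 * x + 3 * (rt m * y)‖ ^ 2 ∨ 201 / 16 ≤ ‖4 * y + 3 * (rt m * z)‖ ^ 2 ∨
      201 / 16 ≤ ‖4 * z + 3 * (rt m * x)‖ ^ 2 := by
  have half : ∀ x y : ℂ, 201 / 16 ≤ 16 * ‖x‖ ^ 2 + 9 * ‖y‖ ^ 2 + 12 * (‖x‖ * ‖y‖) →
      ∃ m, 201 / 16 ≤ ‖4 * x + 3 * (rt m * y)‖ ^ 2 := by
    intro x y H
    obtain ⟨m, hm⟩ := exists_half (conj x * y)
    rw [norm_mul, norm_conj] at hm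
    exact ⟨m, by rw [norm_comb]; linarith⟩
  have key : ∀ x y z : ℂ, ‖x‖ ^ 2 + ‖y‖ ^ 2 + ‖z‖ ^ 2 = 1 → ∀ m,
      3 / 4 * (‖x‖ * ‖y‖) ≤ (rt m * (conj x * y)).re →
      ∃ m, 201 / 16 ≤ ‖4 * x + 3 * (rt m * y)‖ ^ 2 ∨ 201 / 16 ≤ ‖4 * y + 3 * (rt m * z)‖ ^ 2 ∨
        201 / 16 ≤ ‖4 * z + 3 * (rt m * x)‖ ^ 2 := by
    intro x y z h m hm
    rcases real_cover (norm_nonneg x) (norm_nonneg y) (norm_nonneg z) h with H | H | H
    · exact ⟨m, Or.inl (by rw [norm_comb]; linarith)⟩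
    · exact (half y z H).imp fun _ h => Or.inr (Or.inl h)
    · exact (half z x H).imp fun _ h => Or.inr (Or.inr h)
  obtain ⟨m, H | H | H⟩ := phase' x y z
  · exact key x y z h m H
  · exact (key y z x (by linarith) m H).imp fun _ h => by tauto
  · exact (key z x y (by linarith) m H).imp fun _ h => by tauto

/-- the space `ℂ³` -/
abbrev C3 := EuclideanSpace ℂ (Fin 3)

/-- the projector `x x*` -/
noncomputable def cpr (x : C3) : EuclideanSpace ℂ (Fin 3 × Fin 3) :=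
  WithLp.toLp 2 fun p => x p.1 * conj (x p.2)

theorem cp2_eq : cp2 = cpr '' sphere 0 1 := by
  ext A
  constructor
  · rintro ⟨x, hx, h⟩
    exact ⟨x, by simpa using hx, by ext p; exact (h p.1 p.2).symm⟩
  · rintro ⟨x, hx, rfl⟩
    exact ⟨x, by simpa using hx, fun _ _ => rfl⟩

theorem isCompact_cp2 : IsCompact cp2 := by
  rw [cp2_eq]
  refine (isCompact_sphere 0 1).image ?_
  unfold cpr
  exact (PiLp.continuous_toLp 2 _).comp (continuous_pi fun p => by fun_prop)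

theorem inner_cpr (x y : C3) : inner ℂ (cpr x) (cpr y) = ((‖inner ℂ x y‖ ^ 2 : ℝ) : ℂ) := by
  rw [Complex.sq_norm, ← mul_conj]
  simp [cpr, PiLp.inner_apply, Fintype.sum_prod_type, Fin.sum_univ_three]
  ring

theorem dist_cpr {x y : C3} (hx : ‖x‖ = 1) (hy : ‖y‖ = 1) :
    dist (cpr x) (cpr y) ^ 2 = 2 - 2 * ‖inner ℂ x y‖ ^ 2 := by
  have key : ∀ x : C3, ‖x‖ = 1 → ‖cpr x‖ ^ 2 = 1 := fun x hx => by
    rw [← inner_self_eq_norm_sq (𝕜 := ℂ), inner_cpr, inner_self_eq_norm_sq_to_K, hx]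
    simp
  rw [dist_eq_norm, norm_sub_sq (𝕜 := ℂ), key x hx, key y hy, inner_cpr]
  simp only [RCLike.re_to_complex, ofReal_re]
  ring

theorem cap {a x y : C3} (ha : ‖a‖ = 1) (hx : ‖x‖ = 1) (hy : ‖y‖ = 1) {c : ℝ}
    (h1 : c ≤ ‖inner ℂ a x‖ ^ 2) (h2 : c ≤ ‖inner ℂ a y‖ ^ 2) : 2 * c - 1 ≤ ‖inner ℂ x y‖ := by
  have haa : inner ℂ a a = 1 := by rw [inner_self_eq_norm_sq_to_K, ha]; simp
  have key : ∀ x y : C3, inner ℂ (x - inner ℂ a x • a) (y - inner ℂ a y • a) =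
      inner ℂ x y - conj (inner ℂ a x) * inner ℂ a y := by
    intro x y
    simp only [inner_sub_left, inner_sub_right, inner_smul_left, inner_smul_right, haa,
      ← inner_conj_symm x a]
    ring
  have nn : ∀ x : C3, ‖x‖ = 1 → ‖x - inner ℂ a x • a‖ ^ 2 = 1 - ‖inner ℂ a x‖ ^ 2 := by
    intro x hx
    rw [← inner_self_eq_norm_sq (𝕜 := ℂ), key, inner_self_eq_norm_sq_to_K, hx, mul_comm, mul_conj,
      normSq_eq_norm_sq]
    simp [-ofReal_pow, ← ofReal_pow]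
  have h3 := norm_inner_le_norm (𝕜 := ℂ) (x - inner ℂ a x • a) (y - inner ℂ a y • a)
  have h4 := norm_sub_norm_le (conj (inner ℂ a x) * inner ℂ a y)
    (conj (inner ℂ a x) * inner ℂ a y - inner ℂ x y)
  rw [sub_sub_cancel, norm_sub_rev, ← key, norm_mul, norm_conj] at h4
  have h5 := nn x hx
  have h6 := nn y hy
  generalize ‖x - inner ℂ a x • a‖ = s, ‖y - inner ℂ a y • a‖ = t at h3 h5 h6
  have h7 : s * t ≤ 1 - (‖inner ℂ a x‖ ^ 2 + ‖inner ℂ a y‖ ^ 2) / 2 := by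
    nlinarith [sq_nonneg (s - t)]
  have h8 : c ≤ ‖inner ℂ a x‖ * ‖inner ℂ a y‖ := by
    by_contra hcon
    push Not at hcon
    have h9 : 0 ≤ ‖inner ℂ a x‖ * ‖inner ℂ a y‖ := by positivity
    nlinarith [mul_le_mul h1 h2 (by linarith) (sq_nonneg _)]
  linarith

/-- the centres of the nine caps -/
noncomputable def cen (k m : Fin 3) : C3 :=
  EuclideanSpace.single k (4 / 5 : ℂ) + EuclideanSpace.single (k + 1) (3 / 5 * conj (rt m))

theorem inner_cen (k m : Fin 3) (x : C3) :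
    inner ℂ (cen k m) x = (4 * x k + 3 * (rt m * x (k + 1))) / 5 := by
  simp only [cen, inner_add_left, EuclideanSpace.inner_single_left, map_mul, map_div₀, conj_conj,
    map_ofNat]
  ring

theorem norm_cen (k m : Fin 3) : ‖cen k m‖ = 1 := by
  have h := normSq_rt m
  have h1 : ‖cen k m‖ ^ 2 = 1 := by
    rw [← inner_self_eq_norm_sq (𝕜 := ℂ), inner_cen]
    rw [normSq_apply] at h
    fin_cases k <;> simp [cen] <;> linarith
  exact (pow_eq_one_iff_of_nonneg (norm_nonneg _) two_ne_zero).1 h1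

theorem e_inner {i j : Fin 3} (h : i ≠ j) :
    inner ℂ (EuclideanSpace.single i (1 : ℂ) : C3) (EuclideanSpace.single j (1 : ℂ) : C3) = 0 := by
  simp [EuclideanSpace.inner_single_left, h]

theorem diam_cp2 : diam cp2 = √2 := by
  refine le_antisymm (diam_le_of_forall_dist_le (by positivity) ?_) ?_
  · rw [cp2_eq]
    rintro _ ⟨x, hx, rfl⟩ _ ⟨y, hy, rfl⟩
    refine Real.le_sqrt_of_sq_le ?_
    rw [dist_cpr (by simpa using hx) (by simpa using hy)]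
    linarith [sq_nonneg ‖inner ℂ x y‖]
  · have h1 := dist_le_diam_of_mem isCompact_cp2.isBounded
      (x := cpr (EuclideanSpace.single 0 1)) (y := cpr (EuclideanSpace.single 1 1))
      ⟨_, by simp, fun _ _ => rfl⟩ ⟨_, by simp, fun _ _ => rfl⟩
    refine le_trans (Real.sqrt_le_iff.2 ⟨dist_nonneg, ?_⟩) h1
    rw [dist_cpr (by simp) (by simp), e_inner (by decide)]
    simp

theorem splits_cp2 : Splits cp2 9 := by
  have hb := isCompact_cp2.isBounded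
  refine splits_of_cover (by rw [diam_cp2]; positivity)
    (P := fun i : Fin 9 => cpr '' {x | ‖x‖ = 1 ∧ 201 / 400 ≤
      ‖inner ℂ (cen ((finProdFinEquiv (m := 3) (n := 3)).symm i).1
        ((finProdFinEquiv (m := 3) (n := 3)).symm i).2) x‖ ^ 2})
    (fun i => hb.subset ?_) (fun i => ?_) ?_
  · rintro _ ⟨x, hx, rfl⟩
    exact ⟨x, hx.1, fun _ _ => rfl⟩
  · rw [diam_cp2]
    refine lt_of_le_of_lt (diam_le_of_forall_dist_le (C := √(2 - 2 * (1 / 200) ^ 2))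
      (by positivity) ?_) (Real.sqrt_lt_sqrt (by norm_num) (by norm_num))
    rintro _ ⟨x, hx, rfl⟩ _ ⟨y, hy, rfl⟩
    refine Real.le_sqrt_of_sq_le ?_
    have h1 := cap (norm_cen _ _) hx.1 hy.1 hx.2 hy.2
    rw [dist_cpr hx.1 hy.1]
    nlinarith
  · rw [cp2_eq]
    rintro _ ⟨x, hx, rfl⟩
    have hx1 : ‖x‖ = 1 := by simpa using hx
    have h1 : ‖x 0‖ ^ 2 + ‖x 1‖ ^ 2 + ‖x 2‖ ^ 2 = 1 := by
      have := EuclideanSpace.norm_sq_eq x
      rw [hx1, Fin.sum_univ_three] at this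
      linarith
    have h2 : ∃ k m, 201 / 16 ≤ ‖4 * x k + 3 * (rt m * x (k + 1))‖ ^ 2 := by
      obtain ⟨m, H | H | H⟩ := cx_cover (x 0) (x 1) (x 2) h1
      · exact ⟨0, m, H⟩
      · exact ⟨1, m, H⟩
      · exact ⟨2, m, H⟩
    obtain ⟨k, m, H⟩ := h2
    refine mem_iUnion.2 ⟨finProdFinEquiv (m := 3) (n := 3) (k, m), x, ⟨hx1, ?_⟩, rfl⟩
    rw [Equiv.symm_apply_apply, inner_cen, norm_div, div_pow]
    norm_num
    linarith

/-- the space `ℝ⁸` -/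
abbrev E8 := EuclideanSpace ℝ (Fin 8)

/-- the Hermitian matrix of trace one with given coordinates -/
noncomputable def hm (v : E8) : Matrix (Fin 3) (Fin 3) ℂ :=
  !![⟨1 / 3 + √2 / 2 * v 6 + √6 / 6 * v 7, 0⟩, ⟨√2 / 2 * v 0, √2 / 2 * v 1⟩,
      ⟨√2 / 2 * v 2, √2 / 2 * v 3⟩;
    ⟨√2 / 2 * v 0, -(√2 / 2 * v 1)⟩, ⟨1 / 3 - √2 / 2 * v 6 + √6 / 6 * v 7, 0⟩,
      ⟨√2 / 2 * v 4, √2 / 2 * v 5⟩;
    ⟨√2 / 2 * v 2, -(√2 / 2 * v 3)⟩, ⟨√2 / 2 * v 4, -(√2 / 2 * v 5)⟩,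
      ⟨1 / 3 - 2 * (√6 / 6 * v 7), 0⟩]

/-- the isometric embedding of `ℝ⁸` -/
noncomputable def emb8 (v : E8) : EuclideanSpace ℂ (Fin 3 × Fin 3) :=
  WithLp.toLp 2 fun p => hm v p.1 p.2

theorem s2 : (√2 : ℝ) ^ 2 = 2 := Real.sq_sqrt (by norm_num)

theorem s6 : (√6 : ℝ) ^ 2 = 6 := Real.sq_sqrt (by norm_num)

theorem isometry_emb8 : Isometry emb8 := by
  refine Isometry.of_dist_eq fun v w => ?_
  rw [EuclideanSpace.dist_eq, EuclideanSpace.dist_eq]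
  congr 1
  simp only [Fintype.sum_prod_type, Fin.sum_univ_succ, Fin.sum_univ_zero, Real.dist_eq, sq_abs,
    dist_eq_norm, Complex.sq_norm, normSq_apply]
  simp [emb8, hm]
  ring_nf
  simp only [s2, s6]
  ring

/-- the polar form of the Veronese map -/
noncomputable def ver (x z : C3) : E8 :=
  WithLp.toLp 2 ![√2 / 2 * (x 0 * conj (z 1) + z 0 * conj (x 1)).re,
    √2 / 2 * (x 0 * conj (z 1) + z 0 * conj (x 1)).im,
    √2 / 2 * (x 0 * conj (z 2) + z 0 * conj (x 2)).re,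
    √2 / 2 * (x 0 * conj (z 2) + z 0 * conj (x 2)).im,
    √2 / 2 * (x 1 * conj (z 2) + z 1 * conj (x 2)).re,
    √2 / 2 * (x 1 * conj (z 2) + z 1 * conj (x 2)).im,
    √2 / 2 * (x 0 * conj (z 0) - x 1 * conj (z 1)).re,
    √6 / 6 * (x 0 * conj (z 0) + x 1 * conj (z 1) - 2 * (x 2 * conj (z 2))).re]

theorem norm_c3 (x : C3) : ‖x‖ ^ 2 = (x 0).re ^ 2 + (x 0).im ^ 2 + (x 1).re ^ 2 + (x 1).im ^ 2 +
    (x 2).re ^ 2 + (x 2).im ^ 2 := by
  rw [EuclideanSpace.norm_sq_eq, Fin.sum_univ_three]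
  simp only [Complex.sq_norm, normSq_apply]
  ring

theorem emb8_ver {x : C3} (hx : ‖x‖ = 1) : emb8 (ver x x) = cpr x := by
  have h := norm_c3 x
  rw [hx] at h
  ext ⟨i, j⟩
  fin_cases i <;> fin_cases j <;> apply Complex.ext <;> simp [emb8, hm, ver, cpr] <;> ring_nf <;>
    simp only [s2, s6] <;> linarith

theorem ver_add (x z : C3) (t : ℝ) :
    ver (x + (t : ℂ) • z) (x + (t : ℂ) • z) = ver x x + (2 * t) • ver x z + t ^ 2 • ver z z := by
  ext i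
  fin_cases i <;> simp [ver, ← ofReal_pow] <;> ring

theorem ver_smul (z : C3) (t : ℝ) : ver ((t : ℂ) • z) ((t : ℂ) • z) = t ^ 2 • ver z z := by
  ext i
  fin_cases i <;> simp [ver] <;> ring

theorem ver_I (z : C3) : ver (I • z) (I • z) = ver z z := by
  ext i
  fin_cases i <;> simp [ver] <;> ring

theorem ver_comm (x z : C3) : ver x z = ver z x := by
  ext i
  fin_cases i <;> simp [ver] <;> ring

theorem pre_cp2 : emb8 ⁻¹' cp2 = (fun x => ver x x) '' sphere 0 1 := by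
  ext v
  rw [cp2_eq]
  constructor
  · rintro ⟨x, hx, h⟩
    exact ⟨x, hx, isometry_emb8.injective ((emb8_ver (by simpa using hx)).trans h)⟩
  · rintro ⟨x, hx, rfl⟩
    exact ⟨x, hx, (emb8_ver (by simpa using hx)).symm⟩

theorem cp2_sub : cp2 ⊆ range emb8 := by
  rw [cp2_eq]
  rintro _ ⟨x, hx, rfl⟩
  exact ⟨_, emb8_ver (by simpa using hx)⟩

theorem quad_le {u : E8} {l : ℝ} (h : ∀ w : C3, ‖w‖ = 1 → inner ℝ u (ver w w) ≤ l) (z : C3) :
    inner ℝ u (ver z z) ≤ l * ‖z‖ ^ 2 := by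
  by_cases hz : z = 0
  · have := ver_smul z 0
    simp only [ofReal_zero, zero_smul] at this
    rw [hz] at this ⊢
    rw [this]
    simp
  have h0 : 0 < ‖z‖ := norm_pos_iff.2 hz
  have h1 := h (((‖z‖⁻¹ : ℝ) : ℂ) • z) (by
    rw [norm_smul, norm_real, norm_inv, norm_norm, inv_mul_cancel₀ h0.ne'])
  rw [ver_smul, inner_smul_right, inv_pow, inv_mul_le_iff₀ (by positivity)] at h1
  linarith

theorem eig {u : E8} {x : C3} (hx : ‖x‖ = 1)
    (h : ∀ w : C3, ‖w‖ = 1 → inner ℝ u (ver w w) ≤ inner ℝ u (ver x x)) (z : C3) :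
    inner ℝ u (ver x z) = inner ℝ u (ver x x) * (inner ℂ x z).re := by
  set l := inner ℝ u (ver x x) with hl
  set B := inner ℝ u (ver x z) - l * (inner ℂ x z).re with hB
  set A := l * ‖z‖ ^ 2 - inner ℝ u (ver z z) with hA
  have key : ∀ t : ℝ, 2 * t * B ≤ t ^ 2 * A := by
    intro t
    have h1 := quad_le h (x + (t : ℂ) • z)
    rw [ver_add, norm_add_sq (𝕜 := ℂ), inner_add_right, inner_add_right, inner_smul_right,
      inner_smul_right, inner_smul_right, norm_smul, norm_real, hx, mul_pow, Real.norm_eq_abs,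
      sq_abs, ← hl] at h1
    simp only [RCLike.re_to_complex, re_ofReal_mul] at h1
    rw [hA, hB]
    linarith
  have hA0 : 0 ≤ A := sub_nonneg.2 (quad_le h z)
  have h2 := key (B / (A + 1))
  have h3 : B = B / (A + 1) * (A + 1) := by field_simp
  generalize B / (A + 1) = s at h2 h3
  have h4 : s = 0 := pow_eq_zero_iff (n := 2) two_ne_zero |>.1
    (le_antisymm (by rw [h3] at h2; nlinarith [sq_nonneg s]) (sq_nonneg s))
  rw [h4, zero_mul] at h3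
  exact sub_eq_zero.1 h3

theorem quad_ne {u : E8} (hu : ‖u‖ = 1) {l : ℝ}
    (h : ∀ z : C3, inner ℝ u (ver z z) = l * ‖z‖ ^ 2) : False := by
  have p2 : (0 : ℝ) < √2 := by positivity
  have p6 : (0 : ℝ) < √6 := by positivity
  have a0 := h (WithLp.toLp 2 ![1, 0, 0])
  have a1 := h (WithLp.toLp 2 ![0, 1, 0])
  have a2 := h (WithLp.toLp 2 ![0, 0, 1])
  have b0 := h (WithLp.toLp 2 ![1, 1, 0])
  have b1 := h (WithLp.toLp 2 ![I, 1, 0])
  have b2 := h (WithLp.toLp 2 ![1, 0, 1])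
  have b3 := h (WithLp.toLp 2 ![I, 0, 1])
  have b4 := h (WithLp.toLp 2 ![0, 1, 1])
  have b5 := h (WithLp.toLp 2 ![0, I, 1])
  simp only [norm_c3, PiLp.inner_apply, Fin.sum_univ_succ, Fin.sum_univ_zero]
    at a0 a1 a2 b0 b1 b2 b3 b4 b5
  simp [ver] at a0 a1 a2 b0 b1 b2 b3 b4 b5
  have hl : l = 0 := by linarith
  have z : ∀ {c t : ℝ}, 0 < c → c * t = 0 → t = 0 := fun hc e =>
    (mul_eq_zero.1 e).resolve_left hc.ne'
  have h7 : u 7 = 0 := z p6 (by linarith)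
  have h6 : u 6 = 0 := z p2 (by linarith)
  have h0 : u 0 = 0 := z p2 (by linarith)
  have h1 : u 1 = 0 := z p2 (by linarith)
  have h2 : u 2 = 0 := z p2 (by linarith)
  have h3 : u 3 = 0 := z p2 (by linarith)
  have h4 : u 4 = 0 := z p2 (by linarith)
  have h5 : u 5 = 0 := z p2 (by linarith)
  have hz : u = 0 := by
    ext i
    fin_cases i <;> assumption
  rw [hz, norm_zero] at hu
  exact zero_ne_one hu

theorem orth {u : E8} (hu : ‖u‖ = 1) {x y : C3} (hx : ‖x‖ = 1) (hy : ‖y‖ = 1)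
    (h1 : ∀ w : C3, ‖w‖ = 1 → inner ℝ u (ver w w) ≤ inner ℝ u (ver x x))
    (h2 : ∀ w : C3, ‖w‖ = 1 → inner ℝ (-u) (ver w w) ≤ inner ℝ (-u) (ver y y)) :
    inner ℂ x y = 0 := by
  have hne : inner ℝ u (ver x x) - inner ℝ u (ver y y) ≠ 0 := by
    intro e
    refine quad_ne hu (l := inner ℝ u (ver x x)) fun z => le_antisymm (quad_le h1 z) ?_
    have h3 := quad_le h2 z
    rw [inner_neg_left, inner_neg_left, ← sub_eq_zero.1 e] at h3
    linarith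
  have key : ∀ y' : C3, ‖y'‖ = 1 → ver y' y' = ver y y → (inner ℂ x y').re = 0 := by
    intro y' hy' e
    have h3 := eig hx h1 y'
    have h4 := eig hy' (u := -u) (by rwa [e]) x
    rw [e, inner_neg_left, inner_neg_left, ver_comm y' x, ← inner_conj_symm y' x, conj_re] at h4
    refine (mul_eq_zero.1 ?_).resolve_left hne
    linarith
  have h5 := key y hy rfl
  have h6 := key (I • y) (by rw [norm_smul, norm_I, hy, one_mul]) (ver_I y)
  rw [inner_smul_right, I_mul_re, neg_eq_zero] at h6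
  exact Complex.ext h5 h6

/-- **The complex projective plane has Borsuk number nine.** -/
theorem bSet_cp2 : bSet cp2 = 9 := by
  refine le_antisymm (by exact_mod_cast bSet_le splits_cp2) (le_bSet fun k hk => ?_)
  have hpos : 0 < diam cp2 := by rw [diam_cp2]; positivity
  have hc := compact_pre isometry_emb8 isCompact_cp2
  have e := diam_pre isometry_emb8 cp2_sub
  rw [splits_iff isCompact_cp2.isBounded hpos, ← cover_pre isometry_emb8 cp2_sub,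
    ← splits_iff hc.isBounded (e ▸ hpos)] at hk
  have h1 := lower (by simp) hc (nonempty_of_diam (e ▸ hpos)) (fun u hu a ha b hb h1 h2 => by
    rw [e, diam_cp2]
    rw [pre_cp2] at ha hb h1 h2
    obtain ⟨x, hx, rfl⟩ := ha
    obtain ⟨y, hy, rfl⟩ := hb
    have hx1 : ‖x‖ = 1 := by simpa using hx
    have hy1 : ‖y‖ = 1 := by simpa using hy
    have h3 := orth hu hx1 hy1 (fun w hw => h1 _ ⟨w, by simpa using hw, rfl⟩)
      (fun w hw => h2 _ ⟨w, by simpa using hw, rfl⟩)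
    refine Real.sqrt_le_iff.2 ⟨dist_nonneg, ?_⟩
    rw [← isometry_emb8.dist_eq, emb8_ver hx1, emb8_ver hy1, dist_cpr hx1 hy1, h3]
    simp) hk
  rw [finrank_euclideanSpace_fin] at h1
  exact_mod_cast h1

end Vale.Agent.N052.CW
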