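import Mathlib

/-!
# P052: Borsuk numbers, bodies of constant width, singular points: definitions
-/

namespace Vale.Agent.N052.CW

open scoped RealInnerProductSpace ComplexConjugate

/-- `Y` has a partition into `k` parts (the colour classes of a map `c`), each of diameter strictly
smaller than the diameter of `Y`. -/
def Splits {X : Type} [PseudoMetricSpace X] (Y : Set X) (k : ℕ) : Prop :=
  ∃ c : X → Fin k, ∀ i, Metric.diam {y ∈ Y | c y = i} < Metric.diam Y

/-- `b(Y)`: the least such `k` (infinity if there is none). -/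
noncomputable def bSet {X : Type} [PseudoMetricSpace X] (Y : Set X) : ℕ∞ :=
  ⨅ (k : ℕ) (_ : Splits Y k), (k : ℕ∞)

/-- `b(d)`: the supremum of `b(Y)` over the bounded subsets of `ℝᵈ` of positive diameter. -/
noncomputable def bDim (d : ℕ) : ℕ∞ :=
  ⨆ (Y : Set (EuclideanSpace ℝ (Fin d))) (_ : Bornology.IsBounded Y ∧ 0 < Metric.diam Y), bSet Y

/-- `d*`: the least dimension `d` with `b(d) > d + 1`. -/
noncomputable def dStar : ℕ := sInf {d : ℕ | (d : ℕ∞) + 1 < bDim d}

/-- The convex body `C` has width `D` in every direction. -/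
def ConstWidth {E : Type} [NormedAddCommGroup E] [InnerProductSpace ℝ E] (C : ConvexBody E)
    (D : ℝ) : Prop :=
  ∀ u : E, ‖u‖ = 1 →
    sSup ((fun x => ⟪u, x⟫) '' (C : Set E)) - sInf ((fun x => ⟪u, x⟫) '' (C : Set E)) = D

/-- The singular points of `C`: the points of `C` with two different outer unit normals. -/
def sing {E : Type} [NormedAddCommGroup E] [InnerProductSpace ℝ E] (C : ConvexBody E) : Set E :=
  {x ∈ (C : Set E) | ∃ u v : E, ‖u‖ = 1 ∧ ‖v‖ = 1 ∧ u ≠ v ∧
    (∀ y ∈ (C : Set E), ⟪u, y⟫ ≤ ⟪u, x⟫) ∧ ∀ y ∈ (C : Set E), ⟪v, y⟫ ≤ ⟪v, x⟫}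

/-- `C` is a completion of `X`, of constant width `diam X`, with all singular points in `X` and with
all the symmetries of `X`. -/
def Completes {E : Type} [NormedAddCommGroup E] [InnerProductSpace ℝ E] (X : Set E)
    (C : ConvexBody E) : Prop :=
  X ⊆ C ∧ ConstWidth C (Metric.diam X) ∧ Metric.diam (C : Set E) = Metric.diam X ∧ sing C ⊆ X ∧
    ∀ g : E ≃ᵢ E, g '' X = X → g '' (C : Set E) = C

/-- Every compact set `X` of positive diameter in `ℝᵈ` has such a completion `C`, with
`b(C) = max (d + 1) b(X)`. -/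
def AllComplete (d : ℕ) : Prop :=
  ∀ X : Set (EuclideanSpace ℝ (Fin d)), IsCompact X → 0 < Metric.diam X →
    ∃ C : ConvexBody (EuclideanSpace ℝ (Fin d)), Completes X C ∧
      bSet C.carrier = max ((d : ℕ∞) + 1) (bSet X)

/-- Bodies of constant width in `ℝᵈ` without singular points have `b = d + 1`. -/
def SmoothCase (d : ℕ) : Prop :=
  ∀ (C : ConvexBody (EuclideanSpace ℝ (Fin d))) (D : ℝ), 0 < D → ConstWidth C D → sing C = ∅ →
    bSet C.carrier = d + 1

/-- Some body of constant width in `ℝᵈ` has `b > d + 1` and a singular set of Hausdorff dimension at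
most three, finite if `d ≥ 63`. -/
def WidthCounter (d : ℕ) : Prop :=
  ∃ (C : ConvexBody (EuclideanSpace ℝ (Fin d))) (D : ℝ), 0 < D ∧ ConstWidth C D ∧
    Metric.diam C.carrier = D ∧ dimH (sing C) ≤ 3 ∧ (63 ≤ d → (sing C).Finite) ∧
    (d : ℕ∞) + 1 < bSet C.carrier

/-- For some `ρ < 1`, every finite set `F` in `ℝᵈ` has a colouring with `k` colours such that points
of the same colour are at distance at most `ρ * diam F`. -/
def FiniteRatio (d k : ℕ) : Prop :=
  ∃ ρ : ℝ, ρ < 1 ∧ ∀ F : Set (EuclideanSpace ℝ (Fin d)), F.Finite →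
    ∃ c : EuclideanSpace ℝ (Fin d) → Fin k,
      ∀ x ∈ F, ∀ y ∈ F, c x = c y → dist x y ≤ ρ * Metric.diam F

/-- The rotation group `SO(3)` in the Euclidean space `ℝ⁹` of real `3 × 3` matrices. -/
def so3 : Set (EuclideanSpace ℝ (Fin 3 × Fin 3)) :=
  {R | Matrix.of (fun i j => R (i, j)) ∈ Matrix.specialOrthogonalGroup (Fin 3) ℝ}

/-- `P A Q` lies in `S` for all `A` in `S` and all rotations `P`, `Q`. -/
def BiInvariant (S : Set (EuclideanSpace ℝ (Fin 3 × Fin 3))) : Prop :=
  ∀ P ∈ Matrix.specialOrthogonalGroup (Fin 3) ℝ, ∀ Q ∈ Matrix.specialOrthogonalGroup (Fin 3) ℝ,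
    ∀ A ∈ S, ∃ B ∈ S, Matrix.of (fun i j => B (i, j)) = P * Matrix.of (fun i j => A (i, j)) * Q

/-- `C` has constant width `2 √2`, its singular set is `SO(3)`, it is invariant under
`A ↦ P A Q`, and `b(C) = 11`. -/
def RotationBody (C : ConvexBody (EuclideanSpace ℝ (Fin 3 × Fin 3))) : Prop :=
  ConstWidth C (2 * √2) ∧ sing C = so3 ∧ BiInvariant C.carrier ∧ bSet C.carrier = 11

/-- The complex projective plane: the projectors `x x*`, `x` a unit vector of `ℂ³`, in the
Euclidean space of complex `3 × 3` matrices. -/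
def cp2 : Set (EuclideanSpace ℂ (Fin 3 × Fin 3)) :=
  {A | ∃ x : EuclideanSpace ℂ (Fin 3), ‖x‖ = 1 ∧ ∀ i j, A (i, j) = x i * conj (x j)}

/-- `Y` lies in an isometric copy of `ℝ⁸`. -/
def InEight {X : Type} [PseudoMetricSpace X] (Y : Set X) : Prop :=
  ∃ f : EuclideanSpace ℝ (Fin 8) → X, Isometry f ∧ Y ⊆ Set.range f

end Vale.Agent.N052.CW
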