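import Mathlib

/-!
# P052: the projector sets of all dimensions, definitions
-/

namespace Vale.Agent.N052

/-- The rank-one orthogonal projectors `x xᵀ`, `x` a unit vector of `ℝⁿ`, in the space of real
`n × n` matrices with the Frobenius (Euclidean) metric. -/
def proj (n : ℕ) : Set (EuclideanSpace ℝ (Fin n × Fin n)) :=
  {A | ∃ x : EuclideanSpace ℝ (Fin n), ‖x‖ = 1 ∧ ∀ i j, A (i, j) = x i * x j}

/-- The symmetric `n × n` matrices of trace one. -/
def symOne (n : ℕ) : Set (EuclideanSpace ℝ (Fin n × Fin n)) :=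
  {A | (∀ i j, A (i, j) = A (j, i)) ∧ ∑ i, A (i, i) = 1}

/-- The rotation group `SO(3)`, in the space `ℝ⁹` of real `3 × 3` matrices with the Frobenius
(Euclidean) metric. -/
def rot3 : Set (EuclideanSpace ℝ (Fin 3 × Fin 3)) :=
  {R | Matrix.of (fun i j => R (i, j)) ∈ Matrix.specialOrthogonalGroup (Fin 3) ℝ}

/-- `Y` is a union of `k` subsets, each of diameter strictly smaller than the diameter of `Y`. -/
def SmallerCover {X : Type} [PseudoMetricSpace X] (Y : Set X) (k : ℕ) : Prop :=
  ∃ P : Fin k → Set X, (⋃ i, P i) = Y ∧ ∀ i, Metric.diam (P i) < Metric.diam Y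

/-- The Borsuk number `b(Y)`: the least `k` such that `Y` is a union of `k` subsets of smaller
diameter. -/
noncomputable def bNum {X : Type} [PseudoMetricSpace X] (Y : Set X) : ℕ :=
  sInf {k : ℕ | SmallerCover Y k}

end Vale.Agent.N052
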