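import Mathlib
import Vale.Agent.N052.Defs
import Vale.Agent.P052.R2.H381.KyFan

/-!
# P052: covers of the projector sets and families of functions on `ℝⁿ`
-/

namespace Vale.Agent.N052

open Metric

/-- `ℝⁿ`. -/
abbrev E (n : ℕ) := EuclideanSpace ℝ (Fin n)

/-- the matrix `x xᵀ`. -/
noncomputable def pr {n : ℕ} (x : E n) : EuclideanSpace ℝ (Fin n × Fin n) :=
  WithLp.toLp 2 (fun p => x p.1 * x p.2)

theorem proj_eq (n : ℕ) : proj n = pr '' sphere (0 : E n) 1 := by
  ext A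
  constructor
  · rintro ⟨x, hx, hA⟩
    refine ⟨x, by simpa using hx, ?_⟩
    ext ⟨i, j⟩
    simp [pr, hA]
  · rintro ⟨x, hx, rfl⟩
    exact ⟨x, by simpa using hx, fun i j => rfl⟩

theorem pr_mem {n : ℕ} {x : E n} (hx : ‖x‖ = 1) : pr x ∈ proj n := ⟨x, hx, fun _ _ => rfl⟩

theorem pr_neg {n : ℕ} (x : E n) : pr (-x) = pr x := by
  ext p
  simp [pr]

theorem continuous_pr {n : ℕ} : Continuous (pr : E n → _) := by
  unfold pr
  refine (PiLp.continuous_toLp 2 _).comp (continuous_pi fun p => ?_)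
  fun_prop

theorem inner_pr {n : ℕ} (x y : E n) : inner ℝ (pr x) (pr y) = inner ℝ x y ^ 2 := by
  simp only [PiLp.inner_apply, pr, Fintype.sum_prod_type, sq, Finset.sum_mul_sum]
  refine Finset.sum_congr rfl fun i _ => Finset.sum_congr rfl fun j _ => ?_
  simp only [RCLike.inner_apply, conj_trivial]
  ring

theorem dist_pr_sq {n : ℕ} {x y : E n} (hx : ‖x‖ = 1) (hy : ‖y‖ = 1) :
    dist (pr x) (pr y) ^ 2 = 2 - 2 * inner ℝ x y ^ 2 := by
  rw [dist_eq_norm, norm_sub_sq_real, ← real_inner_self_eq_norm_sq (pr x),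
    ← real_inner_self_eq_norm_sq (pr y), inner_pr, inner_pr, inner_pr,
    real_inner_self_eq_norm_sq, real_inner_self_eq_norm_sq, hx, hy]
  ring

theorem isCompact_proj (n : ℕ) : IsCompact (proj n) := by
  rw [proj_eq]
  exact (isCompact_sphere 0 1).image continuous_pr

theorem dist_le_of_mem {n : ℕ} {A B : EuclideanSpace ℝ (Fin n × Fin n)} (hA : A ∈ proj n)
    (hB : B ∈ proj n) : dist A B ≤ √2 := by
  rw [proj_eq] at hA hB
  obtain ⟨x, hx, rfl⟩ := hA
  obtain ⟨y, hy, rfl⟩ := hB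
  apply Real.le_sqrt_of_sq_le
  rw [dist_pr_sq (by simpa using hx) (by simpa using hy)]
  nlinarith only [sq_nonneg (inner ℝ x y : ℝ)]

theorem diam_proj {n : ℕ} (hn : 2 ≤ n) : diam (proj n) = √2 := by
  refine le_antisymm (diam_le_of_forall_dist_le (by positivity)
    fun A hA B hB => dist_le_of_mem hA hB) ?_
  obtain ⟨m, rfl⟩ : ∃ m, n = m + 2 := ⟨n - 2, by omega⟩
  have hx : ‖(EuclideanSpace.single 0 1 : E (m + 2))‖ = 1 := by simp
  have hy : ‖(EuclideanSpace.single 1 1 : E (m + 2))‖ = 1 := by simp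
  have h := dist_pr_sq hx hy
  have h0 : inner ℝ (EuclideanSpace.single 0 1 : E (m + 2))
      (EuclideanSpace.single 1 1 : E (m + 2)) = (0 : ℝ) := by
    simp [EuclideanSpace.inner_single_left]
  rw [h0] at h
  have h2 : √2 = dist (pr (EuclideanSpace.single 0 1 : E (m + 2)))
      (pr (EuclideanSpace.single 1 1 : E (m + 2))) := by
    rw [← Real.sqrt_sq (dist_nonneg (x := pr (EuclideanSpace.single 0 1 : E (m + 2)))), h]
    norm_num
  rw [h2]
  exact dist_le_diam_of_mem (isCompact_proj _).isBounded (pr_mem hx) (pr_mem hy)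

/-- Closed sets without orthogonal pairs of unit vectors that cover the sphere up to sign give a
cover of the projectors by sets of smaller diameter. -/
theorem cover_of_closed {n k : ℕ} (hn : 2 ≤ n) (C : Fin k → Set (E n)) (hC : ∀ i, IsClosed (C i))
    (hcov : ∀ x : E n, ‖x‖ = 1 → ∃ i, x ∈ C i ∨ -x ∈ C i)
    (horth : ∀ i, ∀ x ∈ C i, ∀ y ∈ C i, ‖x‖ = 1 → ‖y‖ = 1 → inner ℝ x y ≠ (0 : ℝ)) :
    SmallerCover (proj n) k := by
  refine ⟨fun i => pr '' (C i ∩ sphere 0 1), ?_, fun i => ?_⟩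
  · rw [proj_eq]
    refine Set.Subset.antisymm
      (Set.iUnion_subset fun i => Set.image_mono Set.inter_subset_right) ?_
    rintro _ ⟨x, hx, rfl⟩
    have hx1 : ‖x‖ = 1 := by simpa using hx
    obtain ⟨i, hi | hi⟩ := hcov x hx1
    · exact Set.mem_iUnion.mpr ⟨i, x, ⟨hi, hx⟩, rfl⟩
    · exact Set.mem_iUnion.mpr ⟨i, -x, ⟨hi, by simpa using hx1⟩, pr_neg x⟩
  · rw [diam_proj hn]
    have hK : IsCompact (C i ∩ sphere (0 : E n) 1) := (isCompact_sphere 0 1).inter_left (hC i)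
    rcases (C i ∩ sphere (0 : E n) 1).eq_empty_or_nonempty with h0 | hne
    · simp only [h0, Set.image_empty, diam_empty]
      positivity
    · obtain ⟨p, hp, hmin⟩ := (hK.prod hK).exists_isMinOn (hne.prod hne)
        (f := fun p : E n × E n => (inner ℝ p.1 p.2 : ℝ) ^ 2) (by fun_prop)
      have hpos : 0 < (inner ℝ p.1 p.2 : ℝ) ^ 2 := by
        have := horth i p.1 hp.1.1 p.2 hp.2.1 (by simpa using hp.1.2) (by simpa using hp.2.2)
        positivity
      refine lt_of_le_of_lt (diam_le_of_forall_dist_le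
        (C := √(2 - 2 * (inner ℝ p.1 p.2 : ℝ) ^ 2)) (Real.sqrt_nonneg _) ?_) ?_
      · rintro _ ⟨x, hx, rfl⟩ _ ⟨y, hy, rfl⟩
        apply Real.le_sqrt_of_sq_le
        rw [dist_pr_sq (by simpa using hx.2) (by simpa using hy.2)]
        have := hmin (show (x, y) ∈ (C i ∩ sphere (0 : E n) 1) ×ˢ (C i ∩ sphere (0 : E n) 1)
          from ⟨hx, hy⟩)
        simp only [Set.mem_ofPred_eq] at this
        linarith
      · rcases le_total 0 (2 - 2 * (inner ℝ p.1 p.2 : ℝ) ^ 2) with h | h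
        · exact Real.sqrt_lt_sqrt h (by linarith)
        · rw [Real.sqrt_eq_zero_of_nonpos h]
          positivity

/-- `k` continuous functions on `ℝⁿ`, homogeneous of degree one, with no common zero on the
sphere, such that no function is positive at two orthogonal points. -/
structure IsDat {n k : ℕ} (h : Fin k → E n → ℝ) : Prop where
  cont : ∀ i, Continuous (h i)
  nonneg : ∀ i x, 0 ≤ h i x
  hom : ∀ i (a : ℝ) x, h i (a • x) = |a| * h i x
  pos : ∀ x, x ≠ 0 → ∃ i, 0 < h i x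
  orth : ∀ i x y, inner ℝ x y = (0 : ℝ) → h i x = 0 ∨ h i y = 0

/-- There is such a family of `k` functions on `ℝⁿ`. -/
def Dat (n k : ℕ) : Prop := ∃ h : Fin k → E n → ℝ, IsDat h

theorem cover_of_dat {n k : ℕ} (hn : 2 ≤ n) (H : Dat n k) : SmallerCover (proj n) k := by
  obtain ⟨h, hh⟩ := H
  refine cover_of_closed hn (fun i => {x | ∀ j, h j x ≤ h i x}) (fun i => ?_) (fun x hx => ?_) ?_
  · rw [Set.ofPred_forall]
    exact isClosed_iInter fun j => isClosed_le (hh.cont j) (hh.cont i)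
  · have hx0 : x ≠ 0 := by
      rintro rfl
      simp at hx
    obtain ⟨i₀, -⟩ := hh.pos x hx0
    have : Nonempty (Fin k) := ⟨i₀⟩
    obtain ⟨i, hi⟩ := Finite.exists_max (fun j => h j x)
    exact ⟨i, Or.inl hi⟩
  · intro i x hx y hy hx1 hy1 h0
    have hx0 : x ≠ 0 := by
      rintro rfl
      simp at hx1
    have hy0 : y ≠ 0 := by
      rintro rfl
      simp at hy1
    obtain ⟨j, hj⟩ := hh.pos x hx0
    obtain ⟨l, hl⟩ := hh.pos y hy0
    have h1 := hx j
    have h2 := hy l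
    rcases hh.orth i x y h0 with h3 | h3 <;> linarith

/-- The cone over a set of unit vectors. -/
def cone {n : ℕ} (S : Set (E n)) : Set (E n) :=
  {v | v = 0 ∨ ∃ (t : ℝ) (x : E n), ‖x‖ = 1 ∧ x ∈ S ∧ v = t • x}

theorem cone_nonempty {n : ℕ} (S : Set (E n)) : (cone S).Nonempty := ⟨0, Or.inl rfl⟩

theorem smul_mem_cone {n : ℕ} {S : Set (E n)} {v : E n} (hv : v ∈ cone S) (a : ℝ) :
    a • v ∈ cone S := by
  rcases hv with rfl | ⟨t, x, hx, hc, rfl⟩
  · exact Or.inl (smul_zero a)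
  · exact Or.inr ⟨a * t, x, hx, hc, by rw [mul_smul]⟩

theorem infDist_smul {n : ℕ} (S : Set (E n)) (a : ℝ) (v : E n) :
    infDist (a • v) (cone S) = |a| * infDist v (cone S) := by
  have key : ∀ (a : ℝ) (v : E n), infDist (a • v) (cone S) ≤ |a| * infDist v (cone S) := by
    intro a v
    refine le_of_forall_pos_le_add fun e he => ?_
    obtain ⟨p, hp, hlt⟩ := (infDist_lt_iff (cone_nonempty S) (x := v)
      (r := infDist v (cone S) + e / (|a| + 1))).mp (by
        have : 0 < e / (|a| + 1) := by positivity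
        linarith)
    have h1 : infDist (a • v) (cone S) ≤ dist (a • v) (a • p) :=
      infDist_le_dist_of_mem (smul_mem_cone hp a)
    rw [dist_smul₀, Real.norm_eq_abs] at h1
    have h2 : |a| * dist v p ≤ |a| * (infDist v (cone S) + e / (|a| + 1)) :=
      mul_le_mul_of_nonneg_left hlt.le (abs_nonneg a)
    have h3 : |a| * (e / (|a| + 1)) ≤ e := by
      rw [mul_div_assoc', div_le_iff₀ (by positivity)]
      nlinarith [abs_nonneg a]
    linarith
  rcases eq_or_ne a 0 with rfl | ha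
  · rw [zero_smul, abs_zero, zero_mul]
    exact infDist_zero_of_mem (Or.inl rfl)
  · refine le_antisymm (key a v) ?_
    have h1 := key a⁻¹ (a • v)
    rw [smul_smul, inv_mul_cancel₀ ha, one_smul, abs_inv] at h1
    have h2 : 0 < |a| := abs_pos.mpr ha
    have h3 := mul_le_mul_of_nonneg_left h1 h2.le
    rwa [← mul_assoc, mul_inv_cancel₀ h2.ne', one_mul] at h3

theorem cone_inner {n : ℕ} {S : Set (E n)} {ε : ℝ}
    (hsep : ∀ x ∈ S, ∀ y ∈ S, ‖x‖ = 1 → ‖y‖ = 1 → ε ≤ |inner ℝ x y|)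
    {p q : E n} (hp : p ∈ cone S) (hq : q ∈ cone S) :
    ε * (‖p‖ * ‖q‖) ≤ |inner ℝ p q| := by
  rcases hp with rfl | ⟨s, x, hx, hcx, rfl⟩
  · simp
  rcases hq with rfl | ⟨t, y, hy, hcy, rfl⟩
  · simp
  rw [inner_smul_left, inner_smul_right, norm_smul, norm_smul, hx, hy, Real.norm_eq_abs,
    Real.norm_eq_abs, abs_mul, abs_mul]
  have h := hsep x hcx y hcy hx hy
  simp only [conj_trivial, mul_one]
  have h2 := mul_le_mul_of_nonneg_left h (mul_nonneg (abs_nonneg s) (abs_nonneg t))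
  calc ε * (|s| * |t|) = |s| * |t| * ε := by ring
    _ ≤ |s| * |t| * |inner ℝ x y| := h2
    _ = |s| * (|t| * |inner ℝ x y|) := by ring

theorem dat_of_sep {n k : ℕ} (S : Fin k → Set (E n)) (ε : ℝ) (hε : 0 < ε) (hε1 : ε ≤ 1)
    (hcov : ∀ x : E n, ‖x‖ = 1 → ∃ i, x ∈ S i)
    (hsep : ∀ i, ∀ x ∈ S i, ∀ y ∈ S i, ‖x‖ = 1 → ‖y‖ = 1 → ε ≤ |inner ℝ x y|) : Dat n k := by
  refine ⟨fun i v => max 0 (ε / 8 * ‖v‖ - infDist v (cone (S i))), ?_, ?_, ?_, ?_, ?_⟩
  · intro i
    exact continuous_const.max ((continuous_const.mul continuous_norm).sub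
      (continuous_infDist_pt _))
  · intro i x
    exact le_max_left _ _
  · intro i a x
    show max 0 (ε / 8 * ‖a • x‖ - infDist (a • x) (cone (S i))) =
      |a| * max 0 (ε / 8 * ‖x‖ - infDist x (cone (S i)))
    rw [infDist_smul, norm_smul, Real.norm_eq_abs, mul_max_of_nonneg _ _ (abs_nonneg a), mul_zero]
    congr 1
    ring
  · intro x hx
    have hn : 0 < ‖x‖ := norm_pos_iff.mpr hx
    have hu : ‖‖x‖⁻¹ • x‖ = 1 := by
      rw [norm_smul, norm_inv, norm_norm, inv_mul_cancel₀ hn.ne']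
    obtain ⟨i, hi⟩ := hcov _ hu
    refine ⟨i, ?_⟩
    have hmem : x ∈ cone (S i) := by
      refine Or.inr ⟨‖x‖, ‖x‖⁻¹ • x, hu, hi, ?_⟩
      rw [smul_smul, mul_inv_cancel₀ hn.ne', one_smul]
    rw [lt_max_iff]
    right
    rw [infDist_zero_of_mem hmem]
    have : 0 < ε / 8 * ‖x‖ := by positivity
    linarith
  · intro i x y hxy
    by_contra hcon
    rw [not_or] at hcon
    have hx : infDist x (cone (S i)) < ε / 8 * ‖x‖ := by
      by_contra h
      exact hcon.1 (max_eq_left (by linarith [not_lt.mp h]))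
    have hy : infDist y (cone (S i)) < ε / 8 * ‖y‖ := by
      by_contra h
      exact hcon.2 (max_eq_left (by linarith [not_lt.mp h]))
    obtain ⟨p, hp, hp2⟩ := (infDist_lt_iff (cone_nonempty (S i))).mp hx
    obtain ⟨q, hq, hq2⟩ := (infDist_lt_iff (cone_nonempty (S i))).mp hy
    have hX : 0 < ‖x‖ := by
      by_contra h
      have h0 : ‖x‖ = 0 := le_antisymm (not_lt.mp h) (norm_nonneg _)
      rw [h0, mul_zero] at hp2
      exact absurd hp2 (not_lt.mpr dist_nonneg)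
    have hY : 0 < ‖y‖ := by
      by_contra h
      have h0 : ‖y‖ = 0 := le_antisymm (not_lt.mp h) (norm_nonneg _)
      rw [h0, mul_zero] at hq2
      exact absurd hq2 (not_lt.mpr dist_nonneg)
    rw [dist_eq_norm] at hp2 hq2
    have h1 := cone_inner (hsep i) hp hq
    have e : (inner ℝ p q : ℝ) = -(inner ℝ (x - p) q) - inner ℝ x (y - q) := by
      rw [inner_sub_left, inner_sub_right, hxy]
      ring
    have h2 : |(inner ℝ p q : ℝ)| ≤ ‖x - p‖ * ‖q‖ + ‖x‖ * ‖y - q‖ := by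
      rw [e]
      have a1 := abs_real_inner_le_norm (x - p) q
      have a2 := abs_real_inner_le_norm x (y - q)
      rw [abs_le] at a1 a2 ⊢
      constructor <;> linarith [a1.1, a1.2, a2.1, a2.2]
    have hP : ‖x‖ - ‖x - p‖ ≤ ‖p‖ := by
      have := norm_sub_norm_le x (x - p)
      rwa [sub_sub_cancel] at this
    have hQ : ‖y‖ - ‖y - q‖ ≤ ‖q‖ := by
      have := norm_sub_norm_le y (y - q)
      rwa [sub_sub_cancel] at this
    have hQ2 : ‖q‖ ≤ ‖y‖ + ‖y - q‖ := by
      have := norm_sub_le y (y - q)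
      rwa [sub_sub_cancel] at this
    have b1 : 7 / 8 * ‖x‖ ≤ ‖p‖ := by nlinarith
    have b2 : 7 / 8 * ‖y‖ ≤ ‖q‖ := by nlinarith
    have b3 : ‖q‖ ≤ 9 / 8 * ‖y‖ := by nlinarith
    have c1 : ε * (7 / 8 * ‖x‖ * (7 / 8 * ‖y‖)) ≤ ε * (‖p‖ * ‖q‖) := by
      gcongr
    have c2 : ‖x - p‖ * ‖q‖ ≤ ε / 8 * ‖x‖ * (9 / 8 * ‖y‖) := by
      gcongr
    have c3 : ‖x‖ * ‖y - q‖ ≤ ‖x‖ * (ε / 8 * ‖y‖) := by
      gcongr
    have hXY : 0 < ε * (‖x‖ * ‖y‖) := by positivity
    nlinarith only [h1, h2, c1, c2, c3, hXY]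

theorem dat_of_cover {n k : ℕ} (hn : 2 ≤ n) (H : SmallerCover (proj n) k) : Dat n k := by
  obtain ⟨P, hP, hlt⟩ := H
  rw [diam_proj hn] at hlt
  have hsub : ∀ i, P i ⊆ proj n := fun i => hP ▸ Set.subset_iUnion P i
  obtain ⟨δ, hδ0, hδ2, hδ⟩ : ∃ δ : ℝ, 0 ≤ δ ∧ δ < √2 ∧ ∀ i, diam (P i) ≤ δ := by
    rcases isEmpty_or_nonempty (Fin k) with h | h
    · exact ⟨0, le_rfl, by positivity, fun i => h.elim i⟩
    · obtain ⟨i₀, hi₀⟩ := Finite.exists_max (fun i => diam (P i))
      exact ⟨_, diam_nonneg, hlt i₀, hi₀⟩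
  have hδsq : δ ^ 2 < 2 := by
    have := pow_lt_pow_left₀ hδ2 hδ0 (two_ne_zero)
    rwa [Real.sq_sqrt (by norm_num)] at this
  have hη : 0 < 1 - δ ^ 2 / 2 := by linarith
  refine dat_of_sep (fun i => pr ⁻¹' P i) (√(1 - δ ^ 2 / 2)) (Real.sqrt_pos.mpr hη) ?_ ?_ ?_
  · rw [Real.sqrt_le_left zero_le_one]
    nlinarith only [sq_nonneg δ]
  · intro x hx
    have : pr x ∈ ⋃ i, P i := hP ▸ pr_mem hx
    obtain ⟨i, hi⟩ := Set.mem_iUnion.mp this
    exact ⟨i, hi⟩
  · intro i x hx y hy hx1 hy1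
    have h1 : dist (pr x) (pr y) ≤ δ :=
      (dist_le_diam_of_mem ((isCompact_proj n).isBounded.subset (hsub i)) hx hy).trans (hδ i)
    have h2 : dist (pr x) (pr y) ^ 2 ≤ δ ^ 2 := pow_le_pow_left₀ dist_nonneg h1 2
    rw [dist_pr_sq hx1 hy1] at h2
    rw [← Real.sqrt_sq_eq_abs]
    exact Real.sqrt_le_sqrt (by linarith)

/-- A point of the sphere of `ℝⁿ⁺¹` at which `n + 1` of the functions are positive. -/
theorem exists_many {n k : ℕ} {h : Fin k → E (n + 1) → ℝ} (hh : IsDat h) :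
    ∃ x : E (n + 1), ‖x‖ = 1 ∧ ∃ A : Finset (Fin k), A.card = n + 1 ∧ ∀ a ∈ A, 0 < h a x := by
  classical
  have hy : ∀ a, ∃ y : E (n + 1), ∀ x, 0 < h a x → inner ℝ x y ≠ (0 : ℝ) := by
    intro a
    by_cases ha : ∃ y, 0 < h a y
    · obtain ⟨y, hy⟩ := ha
      refine ⟨y, fun x hx h0 => ?_⟩
      rcases hh.orth a x y h0 with h1 | h1 <;> linarith
    · exact ⟨0, fun x hx => absurd ⟨x, hx⟩ ha⟩
  choose y hy using hy
  have heven : ∀ a x, h a (-x) = h a x := by
    intro a x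
    have := hh.hom a (-1) x
    simpa using this
  obtain ⟨x, hx, t, ht, htx⟩ := Vale.Agent.P052.R2.H381.kyFan (E := E (n + 1)) (n := n) (m := k)
    (by simp) (fun a x => h a x * inner ℝ x (y a))
    (fun a => ((hh.cont a).mul (continuous_id.inner continuous_const)).continuousOn)
    (fun a x _ => by rw [heven, inner_neg_left, mul_neg])
    (fun x hx => by
      have hx0 : x ≠ 0 := by
        rintro rfl
        simp at hx
      obtain ⟨i, hi⟩ := hh.pos x hx0
      exact ⟨i, mul_ne_zero hi.ne' (hy i x hi)⟩)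
  refine ⟨x, by simpa using hx, Finset.univ.image t, ?_, ?_⟩
  · rw [Finset.card_image_of_injective _ ht.injective]
    simp
  · intro a ha
    obtain ⟨j, -, rfl⟩ := Finset.mem_image.1 ha
    refine lt_of_le_of_ne (hh.nonneg _ _) fun h0 => ?_
    have := htx j
    rw [← h0, zero_mul, mul_zero] at this
    exact lt_irrefl _ this

/-- The recursion: from `ℝⁿ⁺¹` to a hyperplane, saving `n + 1` functions. -/
theorem dat_step {n k : ℕ} (H : Dat (n + 1) k) : n + 1 ≤ k ∧ Dat n (k - (n + 1)) := by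
  classical
  obtain ⟨h, hh⟩ := H
  obtain ⟨x, hx, A, hA, hpos⟩ := exists_many hh
  have hx0 : x ≠ 0 := by
    rintro rfl
    simp at hx
  have hle : n + 1 ≤ k := by
    have := A.card_le_univ
    rwa [hA, Fintype.card_fin] at this
  refine ⟨hle, ?_⟩
  have : Fact (Module.finrank ℝ (E (n + 1)) = n + 1) := ⟨by simp⟩
  let b := OrthonormalBasis.fromOrthogonalSpanSingleton (𝕜 := ℝ) n hx0
  let T : E n →ₗᵢ[ℝ] E (n + 1) :=
    (Submodule.subtypeₗᵢ _).comp b.repr.symm.toLinearIsometry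
  have hT : ∀ z, inner ℝ x (T z) = (0 : ℝ) := fun z =>
    Submodule.mem_orthogonal_singleton_iff_inner_right.mp (b.repr.symm z).2
  have hc : Aᶜ.card = k - (n + 1) := by
    rw [Finset.card_compl, hA, Fintype.card_fin]
  let e := Aᶜ.orderEmbOfFin hc
  refine ⟨fun j z => h (e j) (T z), fun j => (hh.cont _).comp T.continuous,
    fun j z => hh.nonneg _ _, fun j a z => ?_, fun z hz => ?_, fun j z w hzw => ?_⟩
  · show h (e j) (T (a • z)) = |a| * h (e j) (T z)
    rw [map_smul, hh.hom]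
  · have hz0 : T z ≠ 0 := by
      intro h0
      exact hz (T.injective (by rw [h0, map_zero]))
    obtain ⟨i, hi⟩ := hh.pos _ hz0
    have hiA : i ∈ Aᶜ := by
      rw [Finset.mem_compl]
      intro hiA
      rcases hh.orth i x (T z) (hT z) with h1 | h1
      · exact (hpos i hiA).ne' h1
      · exact hi.ne' h1
    have : i ∈ Set.range e := by
      rw [Finset.range_orderEmbOfFin]
      exact hiA
    obtain ⟨j, rfl⟩ := this
    exact ⟨j, hi⟩
  · exact hh.orth _ _ _ (by rw [T.inner_map_map, hzw])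

theorem dat_mono {n k m : ℕ} (H : Dat n k) (hkm : k ≤ m) : Dat n m := by
  obtain ⟨h, hh⟩ := H
  refine ⟨fun j z => if hj : j.val < k then h ⟨j.val, hj⟩ z else 0, fun j => ?_,
    fun j z => ?_, fun j a z => ?_, fun z hz => ?_, fun j z w hzw => ?_⟩
  · by_cases hj : j.val < k
    · simpa only [dif_pos hj] using hh.cont _
    · simpa only [dif_neg hj] using continuous_const
  · split_ifs with hj
    · exact hh.nonneg _ _
    · exact le_rfl
  · split_ifs with hj
    · exact hh.hom _ _ _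
    · simp
  · obtain ⟨i, hi⟩ := hh.pos z hz
    refine ⟨Fin.castLE hkm i, ?_⟩
    simpa using hi
  · split_ifs with hj
    · exact hh.orth _ _ _ hzw
    · exact Or.inl rfl

/-- The lower bound `n (n + 1) / 2`. -/
theorem dat_lower : ∀ {n k : ℕ}, Dat n k → n * (n + 1) ≤ 2 * k := by
  intro n
  induction n with
  | zero => intro k _; omega
  | succ n ih =>
    intro k H
    obtain ⟨h1, h2⟩ := dat_step H
    have h3 := ih h2
    obtain ⟨m, rfl⟩ := Nat.exists_eq_add_of_le h1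
    rw [Nat.add_sub_cancel_left] at h3
    nlinarith

end Vale.Agent.N052
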