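import Mathlib
import Vale.Agent.N052.Data

/-!
# P052: explicit covers of the projectors of `ℝ³` (six sets) and of `ℝ⁵` (sixteen sets)
-/

namespace Vale.Agent.N052

open Metric

/-- Covers given by the largest of finitely many odd functions. -/
theorem cover_of_fun {n k : ℕ} (hn : 2 ≤ n) {ι : Type} [Fintype ι] [Nonempty ι]
    (hk : Fintype.card ι = k) (g : ι → E n → ℝ) (hg : ∀ i, Continuous (g i))
    (hodd : ∀ i x, g i (-x) = -g i x)
    (hac : ∀ i x y, x ≠ 0 → y ≠ 0 → (∀ j, |g j x| ≤ g i x) → (∀ j, |g j y| ≤ g i y) →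
      0 < (inner ℝ x y : ℝ)) :
    SmallerCover (proj n) k := by
  let e := Fintype.equivFinOfCardEq hk
  refine cover_of_closed hn (fun i => {x | ∀ j, |g j x| ≤ g (e.symm i) x}) (fun i => ?_)
    (fun x _ => ?_) ?_
  · rw [Set.ofPred_forall]
    exact isClosed_iInter fun j => isClosed_le (hg j).abs (hg _)
  · obtain ⟨i, hi⟩ := Finite.exists_max (fun j => |g j x|)
    refine ⟨e i, ?_⟩
    rcases le_total 0 (g i x) with h | h
    · refine Or.inl fun j => ?_
      rw [e.symm_apply_apply]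
      exact (hi j).trans (abs_of_nonneg h).le
    · refine Or.inr fun j => ?_
      rw [e.symm_apply_apply, hodd, hodd, abs_neg]
      exact (hi j).trans (abs_of_nonpos h).le
  · intro i x hx y hy hx1 hy1
    refine (hac (e.symm i) x y ?_ ?_ hx hy).ne'
    · rintro rfl
      simp at hx1
    · rintro rfl
      simp at hy1

/-! ### Six sets for `ℝ³` -/

theorem acute3 {x y z x' y' z' : ℝ} (h1 : 0 ≤ y) (h2 : 2 * x ≤ y + z) (h3 : -(2 * x) ≤ y + z)
    (h4 : x ≤ 2 * z - y) (h5 : -x ≤ 2 * z - y) (h6 : ¬ (x = 0 ∧ y = 0 ∧ z = 0))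
    (k1 : 0 ≤ y') (k2 : 2 * x' ≤ y' + z') (k3 : -(2 * x') ≤ y' + z')
    (k4 : x' ≤ 2 * z' - y') (k5 : -x' ≤ 2 * z' - y') (k6 : ¬ (x' = 0 ∧ y' = 0 ∧ z' = 0)) :
    0 < x * x' + y * y' + z * z' := by
  have hz : 0 < z := by
    by_contra h
    exact h6 ⟨by linarith, by linarith, by linarith⟩
  have hz' : 0 < z' := by
    by_contra h
    exact k6 ⟨by linarith, by linarith, by linarith⟩
  have hzz := mul_pos hz hz'
  rcases le_total 0 x' with hx | hx
  · rcases le_total y z with h | h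
    · have e1 := mul_nonneg hx (show 0 ≤ y + z + 2 * x by linarith)
      have e2 := mul_nonneg h1 (show 0 ≤ y' + z' / 2 - x' by linarith)
      have e3 := mul_nonneg (sub_nonneg.2 h) (show 0 ≤ z' - x' by linarith)
      nlinarith only [e1, e2, e3, hzz]
    · have e1 := mul_nonneg hx (show 0 ≤ 2 * z - y + x by linarith)
      have e2 := mul_nonneg (show 0 ≤ 2 * z - y by linarith)
        (show 0 ≤ y' + z' / 2 - x' by linarith)
      have e3 := mul_nonneg (sub_nonneg.2 h) (show 0 ≤ 2 * y' + z' / 2 by linarith)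
      nlinarith only [e1, e2, e3, hzz]
  · rcases le_total y z with h | h
    · have e1 := mul_nonneg (neg_nonneg.2 hx) (show 0 ≤ y + z - 2 * x by linarith)
      have e2 := mul_nonneg h1 (show 0 ≤ y' + z' / 2 + x' by linarith)
      have e3 := mul_nonneg (sub_nonneg.2 h) (show 0 ≤ z' + x' by linarith)
      nlinarith only [e1, e2, e3, hzz]
    · have e1 := mul_nonneg (neg_nonneg.2 hx) (show 0 ≤ 2 * z - y - x by linarith)
      have e2 := mul_nonneg (show 0 ≤ 2 * z - y by linarith)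
        (show 0 ≤ y' + z' / 2 + x' by linarith)
      have e3 := mul_nonneg (sub_nonneg.2 h) (show 0 ≤ 2 * y' + z' / 2 by linarith)
      nlinarith only [e1, e2, e3, hzz]

/-- The six linear forms. -/
def g3 (i : Fin 6) (p : E 3) : ℝ :=
  ![p 1 + 2 * p 2, -p 1 + 2 * p 2, p 2 + 2 * p 0, -p 2 + 2 * p 0, p 0 + 2 * p 1,
    -p 0 + 2 * p 1] i

theorem ne3 {p : E 3} (hp : p ≠ 0) : ¬ (p 0 = 0 ∧ p 1 = 0 ∧ p 2 = 0) := by
  rintro ⟨h0, h1, h2⟩
  apply hp
  ext i
  fin_cases i
  · exact h0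
  · exact h1
  · exact h2

theorem g3_le {p : E 3} {M : ℝ} (h : ∀ j, |g3 j p| ≤ M) :
    (p 1 + 2 * p 2 ≤ M ∧ -p 1 + 2 * p 2 ≤ M ∧ p 2 + 2 * p 0 ≤ M ∧ -p 2 + 2 * p 0 ≤ M ∧
      p 0 + 2 * p 1 ≤ M ∧ -p 0 + 2 * p 1 ≤ M) ∧
    (-M ≤ p 1 + 2 * p 2 ∧ -M ≤ -p 1 + 2 * p 2 ∧ -M ≤ p 2 + 2 * p 0 ∧ -M ≤ -p 2 + 2 * p 0 ∧
      -M ≤ p 0 + 2 * p 1 ∧ -M ≤ -p 0 + 2 * p 1) :=
  ⟨⟨(abs_le.1 (h 0)).2, (abs_le.1 (h 1)).2, (abs_le.1 (h 2)).2, (abs_le.1 (h 3)).2,
    (abs_le.1 (h 4)).2, (abs_le.1 (h 5)).2⟩,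
   ⟨(abs_le.1 (h 0)).1, (abs_le.1 (h 1)).1, (abs_le.1 (h 2)).1, (abs_le.1 (h 3)).1,
    (abs_le.1 (h 4)).1, (abs_le.1 (h 5)).1⟩⟩

theorem cover_three : SmallerCover (proj 3) 6 := by
  refine cover_of_fun (by norm_num) (ι := Fin 6) (by simp) g3 (fun i => ?_) (fun i x => ?_) ?_
  · unfold g3
    fin_cases i <;> simp <;> fun_prop
  · unfold g3
    fin_cases i <;> simp <;> ring
  · intro i x y hx hy h k
    have hx' := ne3 hx
    have hy' := ne3 hy
    have e : (inner ℝ x y : ℝ) = x 0 * y 0 + x 1 * y 1 + x 2 * y 2 := by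
      simp [PiLp.inner_apply, Fin.sum_univ_three]
      ring
    rw [e]
    obtain ⟨⟨a0, a1, a2, a3, a4, a5⟩, b0, b1, b2, b3, b4, b5⟩ := g3_le h
    obtain ⟨⟨c0, c1, c2, c3, c4, c5⟩, d0, d1, d2, d3, d4, d5⟩ := g3_le k
    clear h k e
    fin_cases i
    · have m : g3 0 x = x 1 + 2 * x 2 := rfl
      have m' : g3 0 y = y 1 + 2 * y 2 := rfl
      simp only [Fin.zero_eta, Fin.isValue] at *
      have := acute3 (x := x 0) (y := x 1) (z := x 2) (x' := y 0) (y' := y 1) (z' := y 2)
        (by linarith) (by linarith) (by linarith) (by linarith) (by linarith) hx'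
        (by linarith) (by linarith) (by linarith) (by linarith) (by linarith) hy'
      linarith
    · have m : g3 1 x = -x 1 + 2 * x 2 := rfl
      have m' : g3 1 y = -y 1 + 2 * y 2 := rfl
      simp only [Fin.mk_one, Fin.isValue] at *
      have := acute3 (x := x 0) (y := -x 1) (z := x 2) (x' := y 0) (y' := -y 1) (z' := y 2)
        (by linarith) (by linarith) (by linarith) (by linarith) (by linarith)
        (by simpa using hx')
        (by linarith) (by linarith) (by linarith) (by linarith) (by linarith)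
        (by simpa using hy')
      linarith
    · have m : g3 2 x = x 2 + 2 * x 0 := rfl
      have m' : g3 2 y = y 2 + 2 * y 0 := rfl
      simp only [Fin.reduceFinMk, Fin.isValue] at *
      have := acute3 (x := x 1) (y := x 2) (z := x 0) (x' := y 1) (y' := y 2) (z' := y 0)
        (by linarith) (by linarith) (by linarith) (by linarith) (by linarith) (by tauto)
        (by linarith) (by linarith) (by linarith) (by linarith) (by linarith) (by tauto)
      linarith
    · have m : g3 3 x = -x 2 + 2 * x 0 := rfl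
      have m' : g3 3 y = -y 2 + 2 * y 0 := rfl
      simp only [Fin.reduceFinMk, Fin.isValue] at *
      have := acute3 (x := x 1) (y := -x 2) (z := x 0) (x' := y 1) (y' := -y 2) (z' := y 0)
        (by linarith) (by linarith) (by linarith) (by linarith) (by linarith)
        (by rw [neg_eq_zero]; tauto)
        (by linarith) (by linarith) (by linarith) (by linarith) (by linarith)
        (by rw [neg_eq_zero]; tauto)
      linarith
    · have m : g3 4 x = x 0 + 2 * x 1 := rfl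
      have m' : g3 4 y = y 0 + 2 * y 1 := rfl
      simp only [Fin.reduceFinMk, Fin.isValue] at *
      have := acute3 (x := x 2) (y := x 0) (z := x 1) (x' := y 2) (y' := y 0) (z' := y 1)
        (by linarith) (by linarith) (by linarith) (by linarith) (by linarith) (by tauto)
        (by linarith) (by linarith) (by linarith) (by linarith) (by linarith) (by tauto)
      linarith
    · have m : g3 5 x = -x 0 + 2 * x 1 := rfl
      have m' : g3 5 y = -y 0 + 2 * y 1 := rfl
      simp only [Fin.reduceFinMk, Fin.isValue] at *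
      have := acute3 (x := x 2) (y := -x 0) (z := x 1) (x' := y 2) (y' := -y 0) (z' := y 1)
        (by linarith) (by linarith) (by linarith) (by linarith) (by linarith)
        (by rw [neg_eq_zero]; tauto)
        (by linarith) (by linarith) (by linarith) (by linarith) (by linarith)
        (by rw [neg_eq_zero]; tauto)
      linarith

/-! ### Sixteen sets for `ℝ⁵` -/

/-- The cell of a triple, in coordinates. -/
structure HB (a b c d e f : ℝ) : Prop where
  sum : a + b + c + d + e + f = 0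
  pos : 0 < a + b + c
  ha : 13 * a ≤ 11 * (a + b + c)
  hb : 13 * b ≤ 11 * (a + b + c)
  hc : 13 * c ≤ 11 * (a + b + c)
  hd : -(13 * d) ≤ 11 * (a + b + c)
  he : -(13 * e) ≤ 11 * (a + b + c)
  hf : -(13 * f) ≤ 11 * (a + b + c)
  da : d ≤ a
  db : d ≤ b
  dc : d ≤ c
  ea : e ≤ a
  eb : e ≤ b
  ec : e ≤ c
  fa : f ≤ a
  fb : f ≤ b
  fc : f ≤ c

theorem HB.s12 {a b c d e f : ℝ} (h : HB a b c d e f) : HB b a c d e f := by
  obtain ⟨h1, h2, h3, h4, h5, h6, h7, h8, h9, h10, h11, h12, h13, h14, h15, h16, h17⟩ := h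
  constructor <;> linarith

theorem HB.s23 {a b c d e f : ℝ} (h : HB a b c d e f) : HB a c b d e f := by
  obtain ⟨h1, h2, h3, h4, h5, h6, h7, h8, h9, h10, h11, h12, h13, h14, h15, h16, h17⟩ := h
  constructor <;> linarith

theorem HB.s45 {a b c d e f : ℝ} (h : HB a b c d e f) : HB a b c e d f := by
  obtain ⟨h1, h2, h3, h4, h5, h6, h7, h8, h9, h10, h11, h12, h13, h14, h15, h16, h17⟩ := h
  constructor <;> linarith

theorem HB.s56 {a b c d e f : ℝ} (h : HB a b c d e f) : HB a b c d f e := by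
  obtain ⟨h1, h2, h3, h4, h5, h6, h7, h8, h9, h10, h11, h12, h13, h14, h15, h16, h17⟩ := h
  constructor <;> linarith

theorem pos4 {r p q s t P Q S T : ℝ} (hr : 0 ≤ r) (hp : 0 ≤ p) (hq : 0 ≤ q) (hs : 0 ≤ s)
    (ht : 0 ≤ t) (hP : 0 < P) (hQ : 0 < Q) (hS : 0 < S) (hT : 0 < T) (h : 0 < p + q + s + t) :
    0 < r + p * P + q * Q + s * S + t * T := by
  have e1 := mul_nonneg hp hP.le
  have e2 := mul_nonneg hq hQ.le
  have e3 := mul_nonneg hs hS.le
  have e4 := mul_nonneg ht hT.le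
  rcases lt_or_eq_of_le hp with h1 | h1
  · linarith [mul_pos h1 hP]
  rcases lt_or_eq_of_le hq with h2 | h2
  · linarith [mul_pos h2 hQ]
  rcases lt_or_eq_of_le hs with h3 | h3
  · linarith [mul_pos h3 hS]
  · linarith [mul_pos (show 0 < t by linarith) hT]

theorem cellB_sorted {a b c d e f a' b' c' d' e' f' : ℝ} (h : HB a b c d e f)
    (k : HB a' b' c' d' e' f') (h1 : b ≤ a) (h2 : c ≤ b) (h4 : e ≤ d) (h5 : f ≤ e) :
    0 < a * a' + b * b' + c * c' + d * d' + e * e' + f * f' := by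
  obtain ⟨hs, hpos, ha, -, -, -, -, hf, -, -, h3, -, -, -, -, -, -⟩ := h
  obtain ⟨ks, kpos, -, -, kc, kd, -, -, da, -, -, ea, -, -, fa, fb, fc⟩ := k
  obtain rfl : f = -(a + b + c + d + e) := by linarith
  obtain rfl : f' = -(a' + b' + c' + d' + e') := by linarith
  rcases lt_or_ge a' 0 with ka | ka
  · have := pos4 (r := (-a' / 32) * (6 * (11 * (a + b + c) - 13 * a)))
      (p := b - c) (q := c - d) (s := d - e) (t := e - -(a + b + c + d + e))
      (P := a' + b' + 14 / 32 * a') (Q := a' + b' + c' + 60 / 32 * a')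
      (S := a' + b' + c' + d' + 40 / 32 * a') (T := a' + b' + c' + d' + e' + 20 / 32 * a')
      (mul_nonneg (by linarith) (by linarith)) (by linarith) (by linarith) (by linarith)
      (by linarith) (by linarith) (by linarith) (by linarith) (by linarith) (by linarith)
    nlinarith only [this]
  rcases lt_or_ge (a' + b' + c' + d' + e') 0 with kf | kf
  · have := pos4
      (r := (-(a' + b' + c' + d' + e') / 32) *
        (6 * (11 * (a + b + c) + 13 * -(a + b + c + d + e))))
      (p := a - b) (q := b - c) (s := c - d) (t := d - e)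
      (P := a' + 20 / 32 * (a' + b' + c' + d' + e'))
      (Q := a' + b' + 40 / 32 * (a' + b' + c' + d' + e'))
      (S := a' + b' + c' + 60 / 32 * (a' + b' + c' + d' + e'))
      (T := a' + b' + c' + d' + 14 / 32 * (a' + b' + c' + d' + e'))
      (mul_nonneg (by linarith) (by linarith)) (by linarith) (by linarith) (by linarith)
      (by linarith) (by linarith) (by linarith) (by linarith) (by linarith) (by linarith)
    nlinarith only [this]
  · have := pos4
      (r := (a - b) * a' + (e - -(a + b + c + d + e)) * (a' + b' + c' + d' + e'))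
      (p := b - c) (q := c - d) (s := d - e) (t := 0)
      (P := a' + b') (Q := a' + b' + c') (S := a' + b' + c' + d') (T := 1)
      (add_nonneg (mul_nonneg (by linarith) ka) (mul_nonneg (by linarith) kf))
      (by linarith) (by linarith) (by linarith) le_rfl
      (by linarith) (by linarith) (by linarith) one_pos (by linarith)
    nlinarith only [this]

theorem cellB_half {a b c d e f a' b' c' d' e' f' : ℝ} (h : HB a b c d e f)
    (k : HB a' b' c' d' e' f') (h1 : b ≤ a) (h2 : c ≤ b) :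
    0 < a * a' + b * b' + c * c' + d * d' + e * e' + f * f' := by
  rcases le_total e d with h4 | h4 <;> rcases le_total f e with h5 | h5 <;>
    rcases le_total f d with h6 | h6
  · exact cellB_sorted h k h1 h2 h4 h5
  · exact cellB_sorted h k h1 h2 h4 h5
  · linarith [cellB_sorted h.s56 k.s56 h1 h2 h6 h5]
  · linarith [cellB_sorted h.s56.s45 k.s56.s45 h1 h2 h6 h4]
  · linarith [cellB_sorted h.s45 k.s45 h1 h2 h4 h6]
  · linarith [cellB_sorted h.s45.s56 k.s45.s56 h1 h2 h5 h6]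
  · linarith [cellB_sorted h.s45.s56.s45 k.s45.s56.s45 h1 h2 h5 h4]
  · linarith [cellB_sorted h.s45.s56.s45 k.s45.s56.s45 h1 h2 h5 h4]

theorem cellB_all {a b c d e f a' b' c' d' e' f' : ℝ} (h : HB a b c d e f)
    (k : HB a' b' c' d' e' f') :
    0 < a * a' + b * b' + c * c' + d * d' + e * e' + f * f' := by
  rcases le_total b a with h4 | h4 <;> rcases le_total c b with h5 | h5 <;>
    rcases le_total c a with h6 | h6
  · exact cellB_half h k h4 h5
  · exact cellB_half h k h4 h5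
  · linarith [cellB_half h.s23 k.s23 h6 h5]
  · linarith [cellB_half h.s23.s12 k.s23.s12 h6 h4]
  · linarith [cellB_half h.s12 k.s12 h4 h6]
  · linarith [cellB_half h.s12.s23 k.s12.s23 h5 h6]
  · linarith [cellB_half h.s12.s23.s12 k.s12.s23.s12 h5 h4]
  · linarith [cellB_half h.s12.s23.s12 k.s12.s23.s12 h5 h4]

/-- All the sixteen linear forms, and their negatives, are at most `M`. -/
def Q (u : Fin 6 → ℝ) (M : ℝ) : Prop :=
  (∀ j, |13 * u j| ≤ M) ∧ ∀ a b c, a ≠ b → a ≠ c → b ≠ c → 11 * (u a + u b + u c) ≤ M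

theorem Q.comp {u : Fin 6 → ℝ} {M : ℝ} (h : Q u M) (σ : Equiv.Perm (Fin 6)) :
    Q (fun j => u (σ j)) M :=
  ⟨fun _ => h.1 _, fun _ _ _ h1 h2 h3 =>
    h.2 _ _ _ (σ.injective.ne h1) (σ.injective.ne h2) (σ.injective.ne h3)⟩

theorem Q.pos {u : Fin 6 → ℝ} {M : ℝ} (h : Q u M) (hu : ∃ j, u j ≠ 0) : 0 < M := by
  obtain ⟨j, hj⟩ := hu
  exact lt_of_lt_of_le (by positivity) (h.1 j)

theorem Q.hb {u : Fin 6 → ℝ} (h : Q u (11 * (u 0 + u 1 + u 2))) (hs : ∑ j, u j = 0)
    (hu : ∃ j, u j ≠ 0) : HB (u 0) (u 1) (u 2) (u 3) (u 4) (u 5) := by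
  have hpos := h.pos hu
  rw [Fin.sum_univ_six] at hs
  refine ⟨hs, by linarith, (abs_le.1 (h.1 0)).2, (abs_le.1 (h.1 1)).2, (abs_le.1 (h.1 2)).2,
    by linarith [(abs_le.1 (h.1 3)).1], by linarith [(abs_le.1 (h.1 4)).1],
    by linarith [(abs_le.1 (h.1 5)).1], ?_, ?_, ?_, ?_, ?_, ?_, ?_, ?_, ?_⟩
  · linarith [h.2 3 1 2 (by decide) (by decide) (by decide)]
  · linarith [h.2 0 3 2 (by decide) (by decide) (by decide)]
  · linarith [h.2 0 1 3 (by decide) (by decide) (by decide)]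
  · linarith [h.2 4 1 2 (by decide) (by decide) (by decide)]
  · linarith [h.2 0 4 2 (by decide) (by decide) (by decide)]
  · linarith [h.2 0 1 4 (by decide) (by decide) (by decide)]
  · linarith [h.2 5 1 2 (by decide) (by decide) (by decide)]
  · linarith [h.2 0 5 2 (by decide) (by decide) (by decide)]
  · linarith [h.2 0 1 5 (by decide) (by decide) (by decide)]

theorem cellB {u w : Fin 6 → ℝ} (hs : ∑ j, u j = 0) (ks : ∑ j, w j = 0) (hu : ∃ j, u j ≠ 0)
    (hw : ∃ j, w j ≠ 0) {a b c : Fin 6} (h1 : a ≠ b) (h2 : a ≠ c) (h3 : b ≠ c)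
    (h : Q u (11 * (u a + u b + u c))) (k : Q w (11 * (w a + w b + w c))) :
    0 < ∑ j, u j * w j := by
  obtain ⟨σ, hσ⟩ := Equiv.Perm.exists_extending_pair (f := (![0, 1, 2] : Fin 3 → Fin 6))
    (g := ![a, b, c]) (by decide) (by
      intro i j hij
      fin_cases i <;> fin_cases j <;> simp_all)
  have e0 : σ 0 = a := hσ 0
  have e1 : σ 1 = b := hσ 1
  have e2 : σ 2 = c := hσ 2
  have H := (h.comp σ)
  have K := (k.comp σ)
  rw [← e0, ← e1, ← e2] at H K
  have hu' : ∃ j, u (σ j) ≠ 0 := by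
    obtain ⟨j, hj⟩ := hu
    exact ⟨σ.symm j, by simpa using hj⟩
  have hw' : ∃ j, w (σ j) ≠ 0 := by
    obtain ⟨j, hj⟩ := hw
    exact ⟨σ.symm j, by simpa using hj⟩
  have := cellB_all (Q.hb H (by rw [Equiv.sum_comp σ u, hs]) hu')
    (Q.hb K (by rw [Equiv.sum_comp σ w, ks]) hw')
  rw [← Equiv.sum_comp σ (fun j => u j * w j), Fin.sum_univ_six]
  exact this

theorem cellA0 {u w : Fin 6 → ℝ} (hs : ∑ j, u j = 0) (ks : ∑ j, w j = 0) (hu : ∃ j, u j ≠ 0)
    (hw : ∃ j, w j ≠ 0) (h : Q u (13 * u 0)) (k : Q w (13 * w 0)) : 0 < ∑ j, u j * w j := by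
  have hp : 0 < u 0 := by linarith [h.pos hu]
  have kp : 0 < w 0 := by linarith [k.pos hw]
  have key : ∀ b c : Fin 6, 0 ≠ b → 0 ≠ c → b ≠ c →
      0 ≤ (2 * u 0 - 11 * u b - 11 * u c) * (2 * w 0 - 11 * w b - 11 * w c) :=
    fun b c h1 h2 h3 => mul_nonneg (by linarith [h.2 0 b c h1 h2 h3])
      (by linarith [k.2 0 b c h1 h2 h3])
  have e12 := key 1 2 (by decide) (by decide) (by decide)
  have e13 := key 1 3 (by decide) (by decide) (by decide)
  have e14 := key 1 4 (by decide) (by decide) (by decide)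
  have e15 := key 1 5 (by decide) (by decide) (by decide)
  have e23 := key 2 3 (by decide) (by decide) (by decide)
  have e24 := key 2 4 (by decide) (by decide) (by decide)
  have e25 := key 2 5 (by decide) (by decide) (by decide)
  have e34 := key 3 4 (by decide) (by decide) (by decide)
  have e35 := key 3 5 (by decide) (by decide) (by decide)
  have e45 := key 4 5 (by decide) (by decide) (by decide)
  have e0 := mul_pos hp kp
  rw [Fin.sum_univ_six] at hs ks ⊢
  have hu5 : u 5 = -(u 0 + u 1 + u 2 + u 3 + u 4) := by linarith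
  have hw5 : w 5 = -(w 0 + w 1 + w 2 + w 3 + w 4) := by linarith
  rw [hu5, hw5] at e15 e25 e35 e45 ⊢
  nlinarith only [e12, e13, e14, e15, e23, e24, e25, e34, e35, e45, e0]

theorem cellA {u w : Fin 6 → ℝ} (hs : ∑ j, u j = 0) (ks : ∑ j, w j = 0) (hu : ∃ j, u j ≠ 0)
    (hw : ∃ j, w j ≠ 0) {a : Fin 6} (h : Q u (13 * u a)) (k : Q w (13 * w a)) :
    0 < ∑ j, u j * w j := by
  set σ : Equiv.Perm (Fin 6) := Equiv.swap 0 a with hσ
  have e0 : σ 0 = a := Equiv.swap_apply_left 0 a
  have H := (h.comp σ)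
  have K := (k.comp σ)
  rw [← e0] at H K
  have hu' : ∃ j, u (σ j) ≠ 0 := by
    obtain ⟨j, hj⟩ := hu
    exact ⟨σ.symm j, by simpa using hj⟩
  have hw' : ∃ j, w (σ j) ≠ 0 := by
    obtain ⟨j, hj⟩ := hw
    exact ⟨σ.symm j, by simpa using hj⟩
  have := cellA0 (by rw [Equiv.sum_comp σ u, hs]) (by rw [Equiv.sum_comp σ w, ks]) hu' hw' H K
  rwa [Equiv.sum_comp σ (fun j => u j * w j)] at this

/-- The coefficient of the isometry from `ℝ⁵` onto the hyperplane of sum zero in `ℝ⁶`. -/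
noncomputable def tt : ℝ := (√6 - 6) / 30

theorem tt_eq : 30 * tt ^ 2 + 12 * tt + 1 = 0 := by
  have h : (√6 : ℝ) ^ 2 = 6 := Real.sq_sqrt (by norm_num)
  unfold tt
  nlinarith only [h]

/-- The isometry from `ℝ⁵` onto the hyperplane of sum zero in `ℝ⁶`. -/
noncomputable def up (x : E 5) : Fin 6 → ℝ :=
  ![x 0 + tt * (x 0 + x 1 + x 2 + x 3 + x 4), x 1 + tt * (x 0 + x 1 + x 2 + x 3 + x 4),
    x 2 + tt * (x 0 + x 1 + x 2 + x 3 + x 4), x 3 + tt * (x 0 + x 1 + x 2 + x 3 + x 4),
    x 4 + tt * (x 0 + x 1 + x 2 + x 3 + x 4), -(1 + 5 * tt) * (x 0 + x 1 + x 2 + x 3 + x 4)]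

theorem up_sum (x : E 5) : ∑ j, up x j = 0 := by
  simp [up, Fin.sum_univ_succ]
  ring

theorem up_inner (x y : E 5) : ∑ j, up x j * up y j = inner ℝ x y := by
  have e : (inner ℝ x y : ℝ) = x 0 * y 0 + x 1 * y 1 + x 2 * y 2 + x 3 * y 3 + x 4 * y 4 := by
    simp [PiLp.inner_apply, Fin.sum_univ_five]
    ring
  rw [e]
  simp only [up, Fin.sum_univ_succ, Fin.sum_univ_zero, Matrix.cons_val_zero,
    Matrix.cons_val_succ]
  linear_combination ((x 0 + x 1 + x 2 + x 3 + x 4) * (y 0 + y 1 + y 2 + y 3 + y 4)) * tt_eq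

theorem up_ne {x : E 5} (hx : x ≠ 0) : ∃ j, up x j ≠ 0 := by
  by_contra h
  push Not at h
  have h1 := up_inner x x
  simp only [h, mul_zero, Finset.sum_const_zero] at h1
  exact hx (inner_self_eq_zero.mp h1.symm)

theorem up_neg (x : E 5) (j : Fin 6) : up (-x) j = -up x j := by
  fin_cases j <;> simp [up] <;> ring

theorem up_cont (j : Fin 6) : Continuous fun x => up x j := by
  fin_cases j <;> simp [up] <;> fun_prop

/-- The index set: six coordinates and ten triples. -/
abbrev I16 := Fin 6 ⊕ {S : Finset (Fin 6) // S.card = 3 ∧ 0 ∈ S}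

/-- The sixteen linear forms. -/
noncomputable def g5 : I16 → E 5 → ℝ
  | Sum.inl a, x => 13 * up x a
  | Sum.inr S, x => 11 * ∑ j ∈ S.1, up x j

theorem g5_Q {x : E 5} {M : ℝ} (h : ∀ j, |g5 j x| ≤ M) : Q (up x) M := by
  refine ⟨fun j => h (Sum.inl j), fun a b c h1 h2 h3 => ?_⟩
  have hc : ({a, b, c} : Finset (Fin 6)).card = 3 :=
    Finset.card_eq_three.2 ⟨a, b, c, h1, h2, h3, rfl⟩
  have hsum : ∑ j ∈ ({a, b, c} : Finset (Fin 6)), up x j = up x a + up x b + up x c := by
    rw [Finset.sum_insert (by simp [h1, h2]), Finset.sum_pair h3, add_assoc]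
  rw [← hsum]
  by_cases h0 : (0 : Fin 6) ∈ ({a, b, c} : Finset (Fin 6))
  · exact (abs_le.1 (h (Sum.inr ⟨_, hc, h0⟩))).2
  · have hc' : ({a, b, c} : Finset (Fin 6))ᶜ.card = 3 := by
      rw [Finset.card_compl, hc]
      rfl
    have h4 : -M ≤ 11 * ∑ j ∈ ({a, b, c} : Finset (Fin 6))ᶜ, up x j :=
      (abs_le.1 (h (Sum.inr ⟨_, hc', Finset.mem_compl.2 h0⟩))).1
    have h5 := Finset.sum_add_sum_compl ({a, b, c} : Finset (Fin 6)) (up x)
    rw [up_sum] at h5
    linarith

theorem card_I16 : Fintype.card I16 = 16 := by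
  rw [Fintype.card_sum, Fintype.card_fin, Fintype.card_subtype]
  decide

theorem cover_five : SmallerCover (proj 5) 16 := by
  refine cover_of_fun (by norm_num) (ι := I16) card_I16 g5 (fun i => ?_) (fun i x => ?_) ?_
  · rcases i with a | S
    · exact continuous_const.mul (up_cont a)
    · exact continuous_const.mul (continuous_finsetSum _ fun j _ => up_cont j)
  · rcases i with a | S
    · simp only [g5, up_neg, mul_neg]
    · simp only [g5, up_neg, Finset.sum_neg_distrib, mul_neg]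
  · intro i x y hx hy h k
    rw [← up_inner]
    rcases i with a | S
    · exact cellA (up_sum x) (up_sum y) (up_ne hx) (up_ne hy) (g5_Q h) (g5_Q k)
    · obtain ⟨S, hS, h0⟩ := S
      obtain ⟨a, b, c, h1, h2, h3, rfl⟩ := Finset.card_eq_three.1 hS
      have hsum : ∀ z : E 5, g5 (Sum.inr ⟨_, hS, h0⟩) z = 11 * (up z a + up z b + up z c) := by
        intro z
        show 11 * ∑ j ∈ ({a, b, c} : Finset (Fin 6)), up z j = _
        rw [Finset.sum_insert (by simp [h1, h2]), Finset.sum_pair h3, add_assoc]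
      rw [hsum] at h k
      exact cellB (up_sum x) (up_sum y) (up_ne hx) (up_ne hy) h1 h2 h3 (g5_Q h) (g5_Q k)

end Vale.Agent.N052
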