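import Mathlib
import Vale.Agent.N052.Cells
import Vale.Agent.P052X.Proj

/-!
# P052: the Borsuk numbers of the projector sets
-/

namespace Vale.Agent.N052

open Metric

theorem not_dat_four : ¬ Dat 4 10 := by
  rintro ⟨h, hh⟩
  exact Vale.Agent.P052.H38.not_isData h ⟨hh.cont, hh.nonneg, hh.hom, hh.pos, hh.orth⟩

/-- A compact set of positive diameter has a finite cover by subsets of smaller diameter. -/
theorem exists_cover {X : Type} [PseudoMetricSpace X] {Y : Set X} (hY : IsCompact Y)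
    (hpos : 0 < diam Y) : ∃ k, SmallerCover Y k := by
  obtain ⟨t, -, htf, ht⟩ := hY.finite_cover_balls (e := diam Y / 4) (by linarith)
  obtain ⟨n, f, hf⟩ := htf.fin_param
  refine ⟨n, fun i => Y ∩ ball (f i) (diam Y / 4), ?_, fun i => ?_⟩
  · refine Set.Subset.antisymm (Set.iUnion_subset fun i => Set.inter_subset_left) fun y hy => ?_
    obtain ⟨z, hz, hyz⟩ := Set.mem_iUnion₂.mp (ht hy)
    obtain ⟨i, rfl⟩ : z ∈ Set.range f := hf.2 ▸ hz
    exact Set.mem_iUnion.mpr ⟨i, hy, hyz⟩
  · have h1 : diam (Y ∩ ball (f i) (diam Y / 4)) ≤ diam (ball (f i) (diam Y / 4)) :=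
      diam_mono Set.inter_subset_right isBounded_ball
    have h2 := diam_ball (x := f i) (r := diam Y / 4) (by linarith)
    linarith

theorem dat_bNum {n : ℕ} (hn : 2 ≤ n) : Dat n (bNum (proj n)) := by
  refine dat_of_cover hn (Nat.sInf_mem (s := {k : ℕ | SmallerCover (proj n) k}) ?_)
  exact exists_cover (isCompact_proj n) (by rw [diam_proj hn]; positivity)

theorem bNum_le {n k : ℕ} (H : SmallerCover (proj n) k) : bNum (proj n) ≤ k :=
  Nat.sInf_le (s := {k : ℕ | SmallerCover (proj n) k}) H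

/-- The recursion `b(X_{n+1}) ≥ b(X_n) + n + 1`. -/
theorem bNum_step {n : ℕ} (hn : 2 ≤ n) : bNum (proj n) + (n + 1) ≤ bNum (proj (n + 1)) := by
  obtain ⟨h1, h2⟩ := dat_step (dat_bNum (n := n + 1) (by omega))
  have h3 := bNum_le (cover_of_dat hn h2)
  omega

theorem bNum_four_ge : 11 ≤ bNum (proj 4) := by
  by_contra h
  exact not_dat_four (dat_mono (dat_bNum (by norm_num)) (by omega))

theorem bNum_two_ge : 3 ≤ bNum (proj 2) := by
  have := dat_lower (dat_bNum (n := 2) le_rfl)
  omega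

theorem bNum_three : bNum (proj 3) = 6 := by
  have h1 := bNum_le cover_three
  have h2 : bNum (proj 2) + 3 ≤ bNum (proj 3) := bNum_step (n := 2) le_rfl
  have h3 := bNum_two_ge
  omega

theorem bNum_two : bNum (proj 2) = 3 := by
  have h1 := bNum_three
  have h2 : bNum (proj 2) + 3 ≤ bNum (proj 3) := bNum_step (n := 2) le_rfl
  have h3 := bNum_two_ge
  omega

theorem bNum_five : bNum (proj 5) = 16 := by
  have h1 := bNum_le cover_five
  have h2 : bNum (proj 4) + 5 ≤ bNum (proj 5) := bNum_step (n := 4) (by norm_num)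
  have h3 := bNum_four_ge
  omega

theorem bNum_four : bNum (proj 4) = 11 := by
  have h1 := bNum_five
  have h2 : bNum (proj 4) + 5 ≤ bNum (proj 5) := bNum_step (n := 4) (by norm_num)
  have h3 := bNum_four_ge
  omega

theorem bNum_ge {n : ℕ} (hn : 4 ≤ n) : n * (n + 1) / 2 + 1 ≤ bNum (proj n) := by
  have key : n * (n + 1) + 2 ≤ 2 * bNum (proj n) := by
    induction n, hn using Nat.le_induction with
    | base => rw [bNum_four]
    | succ n hn ih =>
      have := bNum_step (n := n) (by omega)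
      nlinarith
  omega

/-! ### The symmetric matrices of trace one are a Euclidean space -/

/-- The symmetric matrix with given entries. -/
noncomputable def symL (n : ℕ) :
    (Sym2 (Fin n) → ℝ) →ₗ[ℝ] EuclideanSpace ℝ (Fin n × Fin n) where
  toFun a := WithLp.toLp 2 (fun p => a s(p.1, p.2))
  map_add' _ _ := rfl
  map_smul' _ _ := rfl

theorem symL_inj (n : ℕ) : Function.Injective (symL n) := by
  intro a b h
  funext z
  induction z using Sym2.ind with
  | _ i j => exact congrArg (fun A : EuclideanSpace ℝ (Fin n × Fin n) => A (i, j)) h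

/-- The trace. -/
noncomputable def trL (n : ℕ) : Module.Dual ℝ (Sym2 (Fin n) → ℝ) where
  toFun a := ∑ i, a s(i, i)
  map_add' a b := by simp [Finset.sum_add_distrib]
  map_smul' c a := by simp [Finset.mul_sum]

theorem trL_ne {n : ℕ} (hn : 1 ≤ n) : trL n ≠ 0 := by
  intro h
  have h1 : trL n (fun _ => 1) = 0 := by rw [h]; rfl
  have h2 : trL n (fun _ => 1) = n := by simp [trL]
  rw [h2] at h1
  have : n = 0 := by exact_mod_cast h1
  omega

/-- The symmetric matrices of trace zero. -/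
noncomputable def W (n : ℕ) : Submodule ℝ (EuclideanSpace ℝ (Fin n × Fin n)) :=
  (LinearMap.ker (trL n)).map (symL n)

theorem mem_W {n : ℕ} {A : EuclideanSpace ℝ (Fin n × Fin n)} :
    A ∈ W n ↔ (∀ i j, A (i, j) = A (j, i)) ∧ ∑ i, A (i, i) = 0 := by
  constructor
  · rintro ⟨a, ha, rfl⟩
    refine ⟨fun i j => ?_, ha⟩
    show a s(i, j) = a s(j, i)
    rw [Sym2.eq_swap]
  · rintro ⟨hs, ht⟩
    exact ⟨Sym2.lift ⟨fun i j => A (i, j), hs⟩, ht, rfl⟩

theorem finrank_W {n : ℕ} (hn : 1 ≤ n) : Module.finrank ℝ (W n) = n * (n + 1) / 2 - 1 := by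
  have h1 : Module.finrank ℝ (W n) = Module.finrank ℝ (LinearMap.ker (trL n)) :=
    (Submodule.equivMapOfInjective _ (symL_inj n) _).finrank_eq.symm
  have h2 := Module.Dual.finrank_ker_add_one_of_ne_zero (trL_ne hn)
  rw [Module.finrank_fintype_fun_eq_card, Sym2.card, Fintype.card_fin, Nat.choose_two_right,
    Nat.add_sub_cancel, mul_comm] at h2
  omega

theorem proj_subset (n : ℕ) : proj n ⊆ symOne n := by
  rintro A ⟨x, hx, hA⟩
  refine ⟨fun i j => by rw [hA, hA, mul_comm], ?_⟩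
  have h := EuclideanSpace.norm_sq_eq x
  rw [hx] at h
  simp only [hA]
  simp only [Real.norm_eq_abs, sq_abs, one_pow] at h
  rw [h]
  exact Finset.sum_congr rfl fun i _ => (sq _).symm

theorem exists_emb {n : ℕ} (hn : 1 ≤ n) :
    ∃ f : EuclideanSpace ℝ (Fin (n * (n + 1) / 2 - 1)) → EuclideanSpace ℝ (Fin n × Fin n),
      Isometry f ∧ Set.range f = symOne n := by
  let b := (stdOrthonormalBasis ℝ (W n)).reindex (finCongr (finrank_W hn))
  let T : EuclideanSpace ℝ (Fin (n * (n + 1) / 2 - 1)) →ₗᵢ[ℝ] EuclideanSpace ℝ (Fin n × Fin n) :=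
    (Submodule.subtypeₗᵢ _).comp b.repr.symm.toLinearIsometry
  have hx : ‖(EuclideanSpace.single ⟨0, hn⟩ 1 : E n)‖ = 1 := by simp
  obtain ⟨c, hc1, hc2⟩ : ∃ c, c ∈ symOne n := ⟨_, proj_subset n (pr_mem hx)⟩
  refine ⟨fun v => c + T v, ?_, ?_⟩
  · refine Isometry.of_dist_eq fun v w => ?_
    rw [dist_add_left, T.dist_map]
  · ext A
    constructor
    · rintro ⟨v, rfl⟩
      obtain ⟨h1, h2⟩ := mem_W.1 (show T v ∈ W n from (b.repr.symm v).2)
      refine ⟨fun i j => ?_, ?_⟩
      · show c (i, j) + T v (i, j) = c (j, i) + T v (j, i)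
        rw [hc1, h1]
      · show ∑ i, (c (i, i) + T v (i, i)) = 1
        rw [Finset.sum_add_distrib, hc2, h2, add_zero]
    · rintro ⟨h1, h2⟩
      have hm : A - c ∈ W n := by
        refine mem_W.2 ⟨fun i j => ?_, ?_⟩
        · show A (i, j) - c (i, j) = A (j, i) - c (j, i)
          rw [hc1, h1]
        · show ∑ i, (A (i, i) - c (i, i)) = 0
          rw [Finset.sum_sub_distrib, hc2, h2, sub_self]
      refine ⟨b.repr ⟨A - c, hm⟩, ?_⟩
      show c + ((b.repr.symm (b.repr ⟨A - c, hm⟩) : W n) : EuclideanSpace ℝ (Fin n × Fin n)) = A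
      rw [LinearIsometryEquiv.symm_apply_apply]
      simp

section transfer

variable {X Z : Type} [MetricSpace X] [MetricSpace Z] {f : Z → X} {Y : Set X}

theorem diam_pre (hf : Isometry f) (hY : Y ⊆ Set.range f) : diam (f ⁻¹' Y) = diam Y := by
  rw [← hf.diam_image, Set.image_preimage_eq_of_subset hY]

theorem cover_pre (hf : Isometry f) (hY : Y ⊆ Set.range f) (k : ℕ) :
    SmallerCover (f ⁻¹' Y) k ↔ SmallerCover Y k := by
  constructor
  · rintro ⟨P, hP, hlt⟩
    refine ⟨fun i => f '' P i, ?_, fun i => ?_⟩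
    · rw [← Set.image_iUnion, hP, Set.image_preimage_eq_of_subset hY]
    · rw [hf.diam_image, ← diam_pre hf hY]
      exact hlt i
  · rintro ⟨P, hP, hlt⟩
    refine ⟨fun i => f ⁻¹' P i, ?_, fun i => ?_⟩
    · rw [← Set.preimage_iUnion, hP]
    · rw [diam_pre hf hY, diam_pre hf ((hP ▸ Set.subset_iUnion P i).trans hY)]
      exact hlt i

theorem bNum_pre (hf : Isometry f) (hY : Y ⊆ Set.range f) : bNum (f ⁻¹' Y) = bNum Y := by
  unfold bNum
  exact congrArg sInf (Set.ext fun k => cover_pre hf hY k)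

theorem compact_pre [CompleteSpace Z] (hf : Isometry f) (hY : IsCompact Y) :
    IsCompact (f ⁻¹' Y) :=
  hf.isClosedEmbedding.isCompact_preimage hY

end transfer

theorem borsukNumber_eq {d : ℕ} (Y : Set (EuclideanSpace ℝ (Fin d))) :
    Vale.Agent.P052.borsukNumber Y = bNum Y := rfl

end Vale.Agent.N052
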