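import Mathlib
import Vale.Agent.N052.Main

/-!
# P052: the rotation group of `ℝ³`, and the convex hulls of the projector sets
-/

namespace Vale.Agent.N052

open Metric Pointwise

/-- The symmetric matrix of trace one attached to a `3 × 3` matrix. -/
noncomputable def qm (R : EuclideanSpace ℝ (Fin 3 × Fin 3)) : Matrix (Fin 4) (Fin 4) ℝ :=
  !![(1 + R (0, 0) + R (1, 1) + R (2, 2)) / 4, (R (2, 1) - R (1, 2)) / 4,
      (R (0, 2) - R (2, 0)) / 4, (R (1, 0) - R (0, 1)) / 4;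
    (R (2, 1) - R (1, 2)) / 4, (1 + R (0, 0) - R (1, 1) - R (2, 2)) / 4,
      (R (0, 1) + R (1, 0)) / 4, (R (0, 2) + R (2, 0)) / 4;
    (R (0, 2) - R (2, 0)) / 4, (R (0, 1) + R (1, 0)) / 4,
      (1 - R (0, 0) + R (1, 1) - R (2, 2)) / 4, (R (1, 2) + R (2, 1)) / 4;
    (R (1, 0) - R (0, 1)) / 4, (R (0, 2) + R (2, 0)) / 4,
      (R (1, 2) + R (2, 1)) / 4, (1 - R (0, 0) - R (1, 1) + R (2, 2)) / 4]

/-- The isometry `v ↦ qm (2 v)`. -/
noncomputable def qv (v : EuclideanSpace ℝ (Fin 3 × Fin 3)) : EuclideanSpace ℝ (Fin 4 × Fin 4) :=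
  WithLp.toLp 2 (fun p => qm ((2 : ℝ) • v) p.1 p.2)

theorem isometry_qv : Isometry qv := by
  refine Isometry.of_dist_eq fun v w => ?_
  rw [EuclideanSpace.dist_eq, EuclideanSpace.dist_eq]
  congr 1
  simp only [Fintype.sum_prod_type, Fin.sum_univ_succ, Fin.sum_univ_zero, Real.dist_eq, sq_abs]
  simp [qv, qm]
  ring

theorem rot_eqs {R : EuclideanSpace ℝ (Fin 3 × Fin 3)} :
    R ∈ rot3 ↔ (∀ i j, ∑ k, R (i, k) * R (j, k) = if i = j then 1 else 0) ∧
      R (0, 0) * R (1, 1) * R (2, 2) - R (0, 0) * R (1, 2) * R (2, 1)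
        - R (0, 1) * R (1, 0) * R (2, 2) + R (0, 1) * R (1, 2) * R (2, 0)
        + R (0, 2) * R (1, 0) * R (2, 1) - R (0, 2) * R (1, 1) * R (2, 0) = 1 := by
  unfold rot3
  rw [Set.mem_ofPred_eq, Matrix.mem_specialOrthogonalGroup_iff, Matrix.mem_orthogonalGroup_iff,
    Matrix.det_fin_three]
  refine and_congr ?_ Iff.rfl
  rw [← Matrix.ext_iff]
  refine forall_congr' fun i => forall_congr' fun j => ?_
  rw [Matrix.mul_apply, Matrix.one_apply]
  rfl

/-- The quadratic equations satisfied by the entries of a rotation matrix. -/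
structure SO (R : EuclideanSpace ℝ (Fin 3 × Fin 3)) : Prop where
  a00 : R (0, 0) * R (0, 0) + R (0, 1) * R (0, 1) + R (0, 2) * R (0, 2) = 1
  a01 : R (0, 0) * R (1, 0) + R (0, 1) * R (1, 1) + R (0, 2) * R (1, 2) = 0
  a02 : R (0, 0) * R (2, 0) + R (0, 1) * R (2, 1) + R (0, 2) * R (2, 2) = 0
  a11 : R (1, 0) * R (1, 0) + R (1, 1) * R (1, 1) + R (1, 2) * R (1, 2) = 1
  a12 : R (1, 0) * R (2, 0) + R (1, 1) * R (2, 1) + R (1, 2) * R (2, 2) = 0
  a22 : R (2, 0) * R (2, 0) + R (2, 1) * R (2, 1) + R (2, 2) * R (2, 2) = 1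
  b00 : R (0, 0) * R (0, 0) + R (1, 0) * R (1, 0) + R (2, 0) * R (2, 0) = 1
  b01 : R (0, 0) * R (0, 1) + R (1, 0) * R (1, 1) + R (2, 0) * R (2, 1) = 0
  b02 : R (0, 0) * R (0, 2) + R (1, 0) * R (1, 2) + R (2, 0) * R (2, 2) = 0
  b11 : R (0, 1) * R (0, 1) + R (1, 1) * R (1, 1) + R (2, 1) * R (2, 1) = 1
  b12 : R (0, 1) * R (0, 2) + R (1, 1) * R (1, 2) + R (2, 1) * R (2, 2) = 0
  b22 : R (0, 2) * R (0, 2) + R (1, 2) * R (1, 2) + R (2, 2) * R (2, 2) = 1
  c00 : R (1, 1) * R (2, 2) - R (1, 2) * R (2, 1) = R (0, 0)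
  c01 : -(R (0, 1) * R (2, 2)) + R (0, 2) * R (2, 1) = R (1, 0)
  c02 : R (0, 1) * R (1, 2) - R (0, 2) * R (1, 1) = R (2, 0)
  c10 : -(R (1, 0) * R (2, 2)) + R (1, 2) * R (2, 0) = R (0, 1)
  c11 : R (0, 0) * R (2, 2) - R (0, 2) * R (2, 0) = R (1, 1)
  c12 : -(R (0, 0) * R (1, 2)) + R (0, 2) * R (1, 0) = R (2, 1)
  c20 : R (1, 0) * R (2, 1) - R (1, 1) * R (2, 0) = R (0, 2)
  c21 : -(R (0, 0) * R (2, 1)) + R (0, 1) * R (2, 0) = R (1, 2)
  c22 : R (0, 0) * R (1, 1) - R (0, 1) * R (1, 0) = R (2, 2)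

theorem so_of_mem {R : EuclideanSpace ℝ (Fin 3 × Fin 3)} (hR : R ∈ rot3) : SO R := by
  unfold rot3 at hR
  rw [Set.mem_ofPred_eq, Matrix.mem_specialOrthogonalGroup_iff] at hR
  set A : Matrix (Fin 3) (Fin 3) ℝ := Matrix.of (fun i j => R (i, j)) with hA
  have h1 : A * A.transpose = 1 := (Matrix.mem_orthogonalGroup_iff _ _).1 hR.1
  have h2 : A.transpose * A = 1 := (Matrix.mem_orthogonalGroup_iff' _ _).1 hR.1
  have h3 : A.adjugate = A.transpose := by
    calc A.adjugate = A.adjugate * (A * A.transpose) := by rw [h1, mul_one]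
      _ = A.transpose := by
        rw [← mul_assoc, Matrix.adjugate_mul, hR.2, one_smul, one_mul]
  rw [Matrix.adjugate_fin_three] at h3
  have e1 : ∀ i j, R (i, 0) * R (j, 0) + R (i, 1) * R (j, 1) + R (i, 2) * R (j, 2) =
      if i = j then 1 else 0 := by
    intro i j
    have := congrFun (congrFun h1 i) j
    rwa [Matrix.mul_apply, Fin.sum_univ_three, Matrix.one_apply] at this
  have e2 : ∀ i j, R (0, i) * R (0, j) + R (1, i) * R (1, j) + R (2, i) * R (2, j) =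
      if i = j then 1 else 0 := by
    intro i j
    have := congrFun (congrFun h2 i) j
    rwa [Matrix.mul_apply, Fin.sum_univ_three, Matrix.one_apply] at this
  exact ⟨e1 0 0, e1 0 1, e1 0 2, e1 1 1, e1 1 2, e1 2 2, e2 0 0, e2 0 1, e2 0 2, e2 1 1, e2 1 2,
    e2 2 2, congrFun (congrFun h3 0) 0, congrFun (congrFun h3 0) 1, congrFun (congrFun h3 0) 2,
    congrFun (congrFun h3 1) 0, congrFun (congrFun h3 1) 1, congrFun (congrFun h3 1) 2,
    congrFun (congrFun h3 2) 0, congrFun (congrFun h3 2) 1, congrFun (congrFun h3 2) 2⟩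

theorem qm_minor0 {R : EuclideanSpace ℝ (Fin 3 × Fin 3)} (H : SO R) (j k : Fin 4) :
    qm R 0 j * qm R 0 k = qm R 0 0 * qm R j k := by
  obtain ⟨a00, a01, a02, a11, a12, a22, b00, b01, b02, b11, b12, b22, c00, c01, c02, c10, c11,
    c12, c20, c21, c22⟩ := H
  fin_cases j <;> fin_cases k <;>
    simp only [qm, Matrix.of_apply, Matrix.cons_val, Fin.zero_eta, Fin.mk_one, Fin.reduceFinMk,
      Fin.isValue] <;> linarith

theorem qm_minor1 {R : EuclideanSpace ℝ (Fin 3 × Fin 3)} (H : SO R) (j k : Fin 4) :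
    qm R 1 j * qm R 1 k = qm R 1 1 * qm R j k := by
  obtain ⟨a00, a01, a02, a11, a12, a22, b00, b01, b02, b11, b12, b22, c00, c01, c02, c10, c11,
    c12, c20, c21, c22⟩ := H
  fin_cases j <;> fin_cases k <;>
    simp only [qm, Matrix.of_apply, Matrix.cons_val, Fin.zero_eta, Fin.mk_one, Fin.reduceFinMk,
      Fin.isValue] <;> linarith

theorem qm_minor2 {R : EuclideanSpace ℝ (Fin 3 × Fin 3)} (H : SO R) (j k : Fin 4) :
    qm R 2 j * qm R 2 k = qm R 2 2 * qm R j k := by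
  obtain ⟨a00, a01, a02, a11, a12, a22, b00, b01, b02, b11, b12, b22, c00, c01, c02, c10, c11,
    c12, c20, c21, c22⟩ := H
  fin_cases j <;> fin_cases k <;>
    simp only [qm, Matrix.of_apply, Matrix.cons_val, Fin.zero_eta, Fin.mk_one, Fin.reduceFinMk,
      Fin.isValue] <;> linarith

theorem qm_minor3 {R : EuclideanSpace ℝ (Fin 3 × Fin 3)} (H : SO R) (j k : Fin 4) :
    qm R 3 j * qm R 3 k = qm R 3 3 * qm R j k := by
  obtain ⟨a00, a01, a02, a11, a12, a22, b00, b01, b02, b11, b12, b22, c00, c01, c02, c10, c11,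
    c12, c20, c21, c22⟩ := H
  fin_cases j <;> fin_cases k <;>
    simp only [qm, Matrix.of_apply, Matrix.cons_val, Fin.zero_eta, Fin.mk_one, Fin.reduceFinMk,
      Fin.isValue] <;> linarith

theorem qm_minor {R : EuclideanSpace ℝ (Fin 3 × Fin 3)} (hR : R ∈ rot3) (i j k : Fin 4) :
    qm R i j * qm R i k = qm R i i * qm R j k := by
  have H := so_of_mem hR
  fin_cases i
  · exact qm_minor0 H j k
  · exact qm_minor1 H j k
  · exact qm_minor2 H j k
  · exact qm_minor3 H j k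

theorem qm_symm (R : EuclideanSpace ℝ (Fin 3 × Fin 3)) (i j : Fin 4) : qm R i j = qm R j i := by
  fin_cases i <;> fin_cases j <;> rfl

theorem qm_trace (R : EuclideanSpace ℝ (Fin 3 × Fin 3)) : ∑ i, qm R i i = 1 := by
  simp [qm, Fin.sum_univ_four]
  ring

theorem qv_mem_iff (v : EuclideanSpace ℝ (Fin 3 × Fin 3)) :
    qv v ∈ proj 4 ↔ (2 : ℝ) • v ∈ rot3 := by
  set R := (2 : ℝ) • v with hR
  have hq : ∀ i j, qv v (i, j) = qm R i j := fun _ _ => rfl
  constructor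
  · rintro ⟨x, hx, hA⟩
    simp only [hq] at hA
    have hn := EuclideanSpace.norm_sq_eq x
    rw [hx] at hn
    simp only [Real.norm_eq_abs, sq_abs, one_pow, Fin.sum_univ_four] at hn
    have q00 := hA 0 0
    have q01 := hA 0 1
    have q02 := hA 0 2
    have q03 := hA 0 3
    have q11 := hA 1 1
    have q12 := hA 1 2
    have q13 := hA 1 3
    have q22 := hA 2 2
    have q23 := hA 2 3
    have q33 := hA 3 3
    simp [qm] at q00 q01 q02 q03 q11 q12 q13 q22 q23 q33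
    have r00 : R (0, 0) = x 0 ^ 2 + x 1 ^ 2 - x 2 ^ 2 - x 3 ^ 2 := by linarith
    have r11 : R (1, 1) = x 0 ^ 2 - x 1 ^ 2 + x 2 ^ 2 - x 3 ^ 2 := by linarith
    have r22 : R (2, 2) = x 0 ^ 2 - x 1 ^ 2 - x 2 ^ 2 + x 3 ^ 2 := by linarith
    have r01 : R (0, 1) = 2 * (x 1 * x 2 - x 0 * x 3) := by linarith
    have r10 : R (1, 0) = 2 * (x 1 * x 2 + x 0 * x 3) := by linarith
    have r02 : R (0, 2) = 2 * (x 1 * x 3 + x 0 * x 2) := by linarith
    have r20 : R (2, 0) = 2 * (x 1 * x 3 - x 0 * x 2) := by linarith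
    have r12 : R (1, 2) = 2 * (x 2 * x 3 - x 0 * x 1) := by linarith
    have r21 : R (2, 1) = 2 * (x 2 * x 3 + x 0 * x 1) := by linarith
    rw [rot_eqs]
    refine ⟨fun i j => ?_, ?_⟩
    · fin_cases i <;> fin_cases j <;>
        simp only [Fin.sum_univ_three, Fin.zero_eta, Fin.mk_one, Fin.reduceFinMk, Fin.isValue,
          r00, r11, r22, r01, r10, r02, r20, r12, r21, Fin.reduceEq, if_true, if_false] <;>
        first
        | ring1
        | linear_combination (-(1 + (x 0 ^ 2 + x 1 ^ 2 + x 2 ^ 2 + x 3 ^ 2))) * hn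
    · rw [r00, r11, r22, r01, r10, r02, r20, r12, r21]
      linear_combination (-(1 + (x 0 ^ 2 + x 1 ^ 2 + x 2 ^ 2 + x 3 ^ 2)
        + (x 0 ^ 2 + x 1 ^ 2 + x 2 ^ 2 + x 3 ^ 2) ^ 2)) * hn
  · intro h
    obtain ⟨i, hi⟩ : ∃ i, 0 < qm R i i := by
      by_contra hc
      push Not at hc
      have := Finset.sum_nonpos fun i (_ : i ∈ Finset.univ) => hc i
      rw [qm_trace] at this
      linarith
    have hs : √(qm R i i) * √(qm R i i) = qm R i i := Real.mul_self_sqrt hi.le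
    have hs0 : √(qm R i i) ≠ 0 := (Real.sqrt_pos.2 hi).ne'
    have key : ∀ j k, qm R i j / √(qm R i i) * (qm R i k / √(qm R i i)) = qm R j k := by
      intro j k
      rw [div_mul_div_comm, hs, qm_minor h, mul_div_cancel_left₀ _ hi.ne']
    refine ⟨WithLp.toLp 2 (fun j => qm R i j / √(qm R i i)), ?_, fun j k => ?_⟩
    · refine (pow_left_inj₀ (norm_nonneg _) zero_le_one two_ne_zero).1 ?_
      rw [EuclideanSpace.norm_sq_eq, one_pow, ← qm_trace R]
      refine Finset.sum_congr rfl fun j _ => ?_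
      rw [Real.norm_eq_abs, sq_abs, sq]
      exact key j j
    · rw [hq]
      exact (key j k).symm

theorem proj_sub_range : proj 4 ⊆ Set.range qv := by
  intro A hA
  obtain ⟨hs, ht⟩ := proj_subset 4 hA
  rw [Fin.sum_univ_four] at ht
  refine ⟨WithLp.toLp 2 (fun p => (!![(A (0, 0) + A (1, 1) - A (2, 2) - A (3, 3)) / 2,
    A (1, 2) - A (0, 3), A (1, 3) + A (0, 2);
    A (1, 2) + A (0, 3), (A (0, 0) - A (1, 1) + A (2, 2) - A (3, 3)) / 2, A (2, 3) - A (0, 1);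
    A (1, 3) - A (0, 2), A (2, 3) + A (0, 1), (A (0, 0) - A (1, 1) - A (2, 2) + A (3, 3)) / 2] :
      Matrix (Fin 3) (Fin 3) ℝ) p.1 p.2), ?_⟩
  ext ⟨i, j⟩
  have s10 := hs 1 0
  have s20 := hs 2 0
  have s30 := hs 3 0
  have s21 := hs 2 1
  have s31 := hs 3 1
  have s32 := hs 3 2
  fin_cases i <;> fin_cases j <;> simp [qv, qm] <;> linarith

theorem rot3_eq : rot3 = (2 : ℝ) • (qv ⁻¹' proj 4) := by
  ext R
  rw [Set.mem_smul_set_iff_inv_smul_mem₀ two_ne_zero, Set.mem_preimage, qv_mem_iff, smul_smul,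
    mul_inv_cancel₀ two_ne_zero, one_smul]

theorem cover_smul {V : Type} [NormedAddCommGroup V] [NormedSpace ℝ V] {c : ℝ} (hc : c ≠ 0)
    {Y : Set V} {k : ℕ} (H : SmallerCover Y k) : SmallerCover (c • Y) k := by
  obtain ⟨P, hP, hlt⟩ := H
  refine ⟨fun i => c • P i, by rw [← Set.smul_set_iUnion, hP], fun i => ?_⟩
  rw [diam_smul₀, diam_smul₀]
  exact mul_lt_mul_of_pos_left (hlt i) (norm_pos_iff.2 hc)

theorem bNum_smul {V : Type} [NormedAddCommGroup V] [NormedSpace ℝ V] {c : ℝ} (hc : c ≠ 0)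
    (Y : Set V) : bNum (c • Y) = bNum Y := by
  unfold bNum
  refine congrArg sInf (Set.ext fun k => ⟨fun H => ?_, fun H => cover_smul hc H⟩)
  have := cover_smul (inv_ne_zero hc) H
  rwa [smul_smul, inv_mul_cancel₀ hc, one_smul] at this

theorem bNum_rot3 : bNum rot3 = 11 := by
  rw [rot3_eq, bNum_smul two_ne_zero, bNum_pre isometry_qv proj_sub_range, bNum_four]

theorem isCompact_rot3 : IsCompact rot3 := by
  rw [rot3_eq]
  exact (compact_pre isometry_qv (isCompact_proj 4)).smul _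

theorem diam_rot3 : diam rot3 = 2 * √2 := by
  rw [rot3_eq, diam_smul₀, diam_pre isometry_qv proj_sub_range, diam_proj (by norm_num)]
  norm_num

/-! ### Convex hulls -/

theorem hull_inner {n : ℕ} {A B : EuclideanSpace ℝ (Fin n × Fin n)}
    (hA : A ∈ convexHull ℝ (proj n)) (hB : B ∈ convexHull ℝ (proj n)) :
    0 ≤ (inner ℝ A B : ℝ) := by
  have h1 : ∀ A ∈ proj n, ∀ B ∈ convexHull ℝ (proj n), 0 ≤ (inner ℝ A B : ℝ) := by
    intro A hA
    refine convexHull_min (t := {B | 0 ≤ (inner ℝ A B : ℝ)}) ?_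
      (convex_halfSpace_ge (innerSL ℝ A).toLinearMap.isLinear 0)
    intro B hB
    rw [proj_eq] at hA hB
    obtain ⟨x, -, rfl⟩ := hA
    obtain ⟨y, -, rfl⟩ := hB
    show 0 ≤ (inner ℝ (pr x) (pr y) : ℝ)
    rw [inner_pr]
    positivity
  rw [real_inner_comm]
  exact convexHull_min (t := {A | 0 ≤ (inner ℝ B A : ℝ)})
    (fun A hA => by
      show 0 ≤ (inner ℝ B A : ℝ)
      rw [real_inner_comm]
      exact h1 A hA B hB)
    (convex_halfSpace_ge (innerSL ℝ B).toLinearMap.isLinear 0) hA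

theorem norm_of_mem {n : ℕ} {A : EuclideanSpace ℝ (Fin n × Fin n)} (hA : A ∈ proj n) :
    ‖A‖ ^ 2 = 1 := by
  rw [proj_eq] at hA
  obtain ⟨x, hx, rfl⟩ := hA
  have hx1 : ‖x‖ = 1 := by simpa using hx
  rw [← real_inner_self_eq_norm_sq, inner_pr, real_inner_self_eq_norm_sq, hx1]
  norm_num

theorem hull_norm {n : ℕ} {A : EuclideanSpace ℝ (Fin n × Fin n)}
    (hA : A ∈ convexHull ℝ (proj n)) : ‖A‖ ^ 2 ≤ 1 := by
  have h : A ∈ closedBall (0 : EuclideanSpace ℝ (Fin n × Fin n)) 1 := by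
    refine convexHull_min (fun B hB => ?_) (convex_closedBall 0 1) hA
    rw [mem_closedBall_zero_iff]
    have := norm_of_mem hB
    nlinarith [norm_nonneg B]
  rw [mem_closedBall_zero_iff] at h
  nlinarith [norm_nonneg A]

theorem hull_far {n : ℕ} {A : EuclideanSpace ℝ (Fin n × Fin n)}
    (hA : A ∈ convexHull ℝ (proj n)) {η : ℝ} (hη : 0 ≤ η) (h : ∀ B ∈ proj n, η ≤ dist A B) :
    ‖A‖ ^ 2 ≤ 1 - η ^ 2 := by
  have h1 : (inner ℝ A A : ℝ) ≤ (1 + ‖A‖ ^ 2 - η ^ 2) / 2 := by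
    refine convexHull_min (t := {B | (inner ℝ A B : ℝ) ≤ (1 + ‖A‖ ^ 2 - η ^ 2) / 2}) ?_
      (convex_halfSpace_le (innerSL ℝ A).toLinearMap.isLinear _) hA
    intro B hB
    have h2 := pow_le_pow_left₀ hη (h B hB) 2
    rw [dist_eq_norm, norm_sub_sq_real, norm_of_mem hB] at h2
    show (inner ℝ A B : ℝ) ≤ _
    linarith
  rw [real_inner_self_eq_norm_sq] at h1
  linarith

theorem cover_hull {n k : ℕ} (hn : 2 ≤ n) :
    SmallerCover (convexHull ℝ (proj n)) k ↔ SmallerCover (proj n) k := by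
  have hbd : Bornology.IsBounded (convexHull ℝ (proj n)) :=
    isBounded_convexHull.2 (isCompact_proj n).isBounded
  constructor
  · rintro ⟨P, hP, hlt⟩
    refine ⟨fun i => P i ∩ proj n, ?_, fun i => ?_⟩
    · rw [← Set.iUnion_inter, hP]
      exact Set.inter_eq_right.2 (subset_convexHull ℝ _)
    · rw [← convexHull_diam (proj n)]
      exact lt_of_le_of_lt (diam_mono Set.inter_subset_left
        (hbd.subset (hP ▸ Set.subset_iUnion P i))) (hlt i)
  · rintro ⟨P, hP, hlt⟩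
    rw [diam_proj hn] at hlt
    have hsub : ∀ i, P i ⊆ proj n := fun i => hP ▸ Set.subset_iUnion P i
    have hx : ‖(EuclideanSpace.single ⟨0, by omega⟩ 1 : E n)‖ = 1 := by simp
    obtain ⟨i₁, -⟩ := Set.mem_iUnion.1 (show pr _ ∈ ⋃ i, P i from hP ▸ pr_mem hx)
    have : Nonempty (Fin k) := ⟨i₁⟩
    obtain ⟨i₀, hi₀⟩ := Finite.exists_max (fun i => diam (P i))
    set δ := diam (P i₀) with hδ
    have hδ0 : 0 ≤ δ := diam_nonneg
    set η := (√2 - δ) / 4 with hη
    have hη0 : 0 < η := by linarith [hlt i₀]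
    have hs : √(2 - η ^ 2) < √2 := by
      rcases le_total 0 (2 - η ^ 2) with h | h
      · exact Real.sqrt_lt_sqrt h (by nlinarith)
      · rw [Real.sqrt_eq_zero_of_nonpos h]
        positivity
    refine ⟨fun i => {A | A ∈ convexHull ℝ (proj n) ∧
      ((∃ B ∈ P i, dist A B < η) ∨ ∀ B ∈ proj n, η ≤ dist A B)}, ?_, fun i => ?_⟩
    · refine Set.Subset.antisymm (Set.iUnion_subset fun i A hA => hA.1) fun A hA => ?_
      by_cases h : ∀ B ∈ proj n, η ≤ dist A B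
      · exact Set.mem_iUnion.2 ⟨i₀, hA, Or.inr h⟩
      · push Not at h
        obtain ⟨B, hB, hAB⟩ := h
        obtain ⟨i, hi⟩ := Set.mem_iUnion.1 (show B ∈ ⋃ i, P i from hP ▸ hB)
        exact Set.mem_iUnion.2 ⟨i, hA, Or.inl ⟨B, hi, hAB⟩⟩
    · rw [convexHull_diam, diam_proj hn]
      have far : ∀ A ∈ convexHull ℝ (proj n), ∀ B ∈ convexHull ℝ (proj n),
          (∀ C ∈ proj n, η ≤ dist A C) → dist A B ≤ √(2 - η ^ 2) := by
        intro A hA B hB h
        apply Real.le_sqrt_of_sq_le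
        rw [dist_eq_norm, norm_sub_sq_real]
        linarith [hull_far hA hη0.le h, hull_norm hB, hull_inner hA hB]
      refine lt_of_le_of_lt (diam_le_of_forall_dist_le
        (C := max (δ + 2 * η) √(2 - η ^ 2)) (le_max_of_le_right (Real.sqrt_nonneg _)) ?_)
        (max_lt (by linarith) hs)
      rintro A ⟨hA, ⟨A', hA', hAA⟩ | hA'⟩ B ⟨hB, ⟨B', hB', hBB⟩ | hB'⟩
      · refine le_max_of_le_left ?_
        have h1 : dist A' B' ≤ δ :=
          (dist_le_diam_of_mem ((isCompact_proj n).isBounded.subset (hsub i)) hA' hB').trans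
            (hi₀ i)
        linarith [dist_triangle4_right A B A' B']
      · rw [dist_comm]
        exact le_max_of_le_right (far B hB A hA hB')
      · exact le_max_of_le_right (far A hA B hB hA')
      · exact le_max_of_le_right (far A hA B hB hA')

theorem bNum_hull {n : ℕ} (hn : 2 ≤ n) : bNum (convexHull ℝ (proj n)) = bNum (proj n) := by
  unfold bNum
  exact congrArg sInf (Set.ext fun k => cover_hull hn)

/-! ### The statements of the hand-in -/

theorem all_n (n : ℕ) (hn : 2 ≤ n) :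
    IsCompact (proj n) ∧ diam (proj n) = √2 ∧ proj n ⊆ symOne n ∧
      ∃ f : EuclideanSpace ℝ (Fin (n * (n + 1) / 2 - 1)) → EuclideanSpace ℝ (Fin n × Fin n),
        Isometry f ∧ Set.range f = symOne n ∧ IsCompact (f ⁻¹' proj n) ∧
          diam (f ⁻¹' proj n) = √2 ∧ bNum (f ⁻¹' proj n) = bNum (proj n) := by
  obtain ⟨f, hf, hr⟩ := exists_emb (n := n) (by omega)
  have hsub : proj n ⊆ Set.range f := hr ▸ proj_subset n
  exact ⟨isCompact_proj n, diam_proj hn, proj_subset n, f, hf, hr,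
    compact_pre hf (isCompact_proj n), (diam_pre hf hsub).trans (diam_proj hn), bNum_pre hf hsub⟩

theorem nine :
    ∃ f : EuclideanSpace ℝ (Fin 9) → EuclideanSpace ℝ (Fin 4 × Fin 4),
      Isometry f ∧ Set.range f = symOne 4 ∧ IsCompact (f ⁻¹' proj 4) ∧
        diam (f ⁻¹' proj 4) = √2 ∧ ¬ SmallerCover (f ⁻¹' proj 4) 10 ∧
        SmallerCover (f ⁻¹' proj 4) 11 := by
  obtain ⟨-, -, -, f, hf, hr, hc, hd, -⟩ := all_n 4 (by norm_num)
  have hsub : proj 4 ⊆ Set.range f := hr ▸ proj_subset 4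
  refine ⟨f, hf, hr, hc, hd, fun H => ?_, ?_⟩
  · have := bNum_le ((cover_pre hf hsub 10).1 H)
    rw [bNum_four] at this
    omega
  · refine (cover_pre hf hsub 11).2 (cover_of_dat (by norm_num) ?_)
    rw [← bNum_four]
    exact dat_bNum (by norm_num)

theorem counter_iff (n : ℕ) (hn : 2 ≤ n) :
    (n * (n + 1) / 2 - 1) + 1 < bNum (proj n) ↔ 4 ≤ n := by
  constructor
  · intro h
    by_contra h4
    obtain rfl | rfl : n = 2 ∨ n = 3 := by omega
    · rw [bNum_two] at h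
      omega
    · rw [bNum_three] at h
      omega
  · intro h4
    have h1 := bNum_ge h4
    have h2 : 1 ≤ n * (n + 1) / 2 := by
      have : 2 ≤ n * (n + 1) := by nlinarith
      omega
    omega

theorem fails (d : ℕ) (hd : 9 ≤ d) :
    ∃ Y : Set (EuclideanSpace ℝ (Fin d)), IsCompact Y ∧ 0 < diam Y ∧ d + 1 < bNum Y := by
  obtain ⟨Y, hY, hpos, hcov⟩ := Vale.Agent.P052.H38.borsuk_nine d hd
  refine ⟨Y, hY, hpos, ?_⟩
  by_contra h1
  have h2 : Vale.Agent.P052.IsSmallerCover Y (bNum Y) :=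
    Nat.sInf_mem (s := {k : ℕ | SmallerCover Y k}) (exists_cover hY hpos)
  obtain ⟨P, hP, hlt⟩ := Vale.Agent.P052X.smallerCover_mono hpos h2 (not_lt.1 h1)
  obtain ⟨i, hi⟩ := hcov P hP
  exact absurd hi (hlt i).ne

end Vale.Agent.N052
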