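import Vale.Agent.N052.CWCp
import Vale.Agent.N052.Rot
import Vale.Agent.P052.H768.Two2
import Vale.Agent.P052.H768.Orth
import Vale.Agent.P052.H768.ThreeIrr
import Vale.Agent.P052.Bdl.B1

/-!
# P052: the counterexamples of constant width, and the bounds for the least dimension
-/

namespace Vale.Agent.N052.CW

open Set Metric Bornology P052.H97
open Vale.Agent.P052 (IsSmallerCover exists_all)
open scoped ENNReal

/-- `Good` with a bound for the Hausdorff dimension -/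
def Good3 (d k : ℕ) : Prop :=
  ∃ (Y : Set (EuclideanSpace ℝ (Fin d))) (D ρ : ℝ) (c : EuclideanSpace ℝ (Fin d)),
    IsCompact Y ∧ 0 < D ∧ 2 * ρ ^ 2 < D ^ 2 ∧ (∀ y ∈ Y, dist y c ^ 2 = ρ ^ 2) ∧
    (∀ y ∈ Y, ∀ z ∈ Y, dist y z ≤ D) ∧ dimH Y ≤ 3 ∧
    ∀ (m : ℕ) (P : Fin m → Set (EuclideanSpace ℝ (Fin d))) (δ : ℝ), δ < D →
      (∀ i, ∀ y ∈ P i, ∀ z ∈ P i, dist y z ≤ δ) → Y ⊆ (⋃ i, P i) → k ≤ m

theorem Good3.succ {d k : ℕ} (h : Good3 d k) : Good3 (d + 1) (k + 1) := by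
  obtain ⟨Y, D, ρ, c, hcpt, hD, hρ, hc, hle, hdim, hcov⟩ := h
  have hpos : 0 < D ^ 2 - ρ ^ 2 := by nlinarith [sq_nonneg ρ]
  set t : ℝ := Real.sqrt (D ^ 2 - ρ ^ 2) with ht
  have htpos : 0 < t := Real.sqrt_pos.mpr hpos
  have htsq : t ^ 2 = D ^ 2 - ρ ^ 2 := Real.sq_sqrt hpos.le
  have hDsq : D ^ 2 = t ^ 2 + ρ ^ 2 := by linarith only [htsq]
  have happ : ∀ y ∈ Y, dist (snocE c t) (snocE y 0) = D := by
    intro y hy
    have h1 : dist (snocE c t) (snocE y 0) ^ 2 = D ^ 2 := by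
      rw [dist_snocE_sq, dist_comm, hc y hy, hDsq]
      ring
    exact (pow_left_inj₀ dist_nonneg hD.le (by norm_num)).mp h1
  refine ⟨insert (snocE c t) ((fun y => snocE y 0) '' Y), D, D ^ 2 / (2 * t),
    snocE c ((D ^ 2 - 2 * ρ ^ 2) / (2 * t)), (hcpt.image continuous_snocE).insert _, hD,
    ?_, ?_, ?_, ?_, ?_⟩
  · rw [div_pow, mul_pow, htsq]
    rw [mul_div_assoc', div_lt_iff₀ (by (clear * - hpos; positivity))]
    nlinarith only [hρ]
  · rintro y (rfl | ⟨z, hz, rfl⟩)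
    · rw [dist_snocE_sq, dist_self, hDsq]
      field_simp
      ring
    · rw [dist_snocE_sq, hc z hz]
      rw [hDsq]
      field_simp
      ring
  · rintro y (rfl | ⟨z, hz, rfl⟩) w (rfl | ⟨z', hz', rfl⟩)
    · rw [dist_self]; exact hD.le
    · exact (happ z' hz').le
    · rw [dist_comm]; exact (happ z hz).le
    · show dist (snocE z 0) (snocE z' 0) ≤ D
      rw [dist_snocE_zero]
      exact hle z hz z' hz'
  · rw [insert_eq, dimH_union, dimH_singleton,
      (Isometry.of_dist_eq (fun y z => dist_snocE_zero y z 0)).dimH_image]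
    exact max_le zero_le hdim
  · intro m P δ hδ hP hsub
    have hz : snocE c t ∈ ⋃ i, P i := hsub (Set.mem_insert _ _)
    obtain ⟨i₀, hi₀⟩ := Set.mem_iUnion.mp hz
    obtain ⟨m', rfl⟩ : ∃ m', m = m' + 1 := ⟨m - 1, by have := i₀.pos; omega⟩
    have := hcov m' (fun i => (fun y => snocE y 0) ⁻¹' (P (i₀.succAbove i))) δ hδ ?_ ?_
    · omega
    · intro i y hy z hz'
      rw [← dist_snocE_zero y z 0]
      exact hP _ _ hy _ hz'
    · intro y hy
      have h1 : snocE y 0 ∈ ⋃ i, P i := hsub (Set.mem_insert_of_mem _ ⟨y, hy, rfl⟩)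
      obtain ⟨j, hj⟩ := Set.mem_iUnion.mp h1
      have hne : j ≠ i₀ := by
        rintro rfl
        have h2 := hP j _ hi₀ _ hj
        rw [happ y hy] at h2
        exact absurd (lt_of_le_of_lt h2 hδ) (lt_irrefl _)
      obtain ⟨i, rfl⟩ := Fin.exists_succAbove_eq hne
      exact Set.mem_iUnion.mpr ⟨i, hj⟩

theorem phi_smul (t : ℝ) (x : EuclideanSpace ℝ (Fin 4)) : phi (t • x) = t ^ 2 • phi x := by
  ext i
  fin_cases i <;> simp [phi] <;> ring

/-- an affine chart of the projective space -/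
noncomputable def chart (i : Fin 4) (y : Fin 3 → ℝ) : EuclideanSpace ℝ (Fin 4) :=
  WithLp.toLp 2 (Fin.insertNth (α := fun _ => ℝ) i 1 y)

theorem contDiff_chart (i : Fin 4) : ContDiff ℝ 1 (chart i) := by
  refine contDiff_euclidean.2 fun j => ?_
  induction j using Fin.succAboveCases i with
  | x => simpa [chart] using contDiff_const
  | p j => simpa [chart] using contDiff_apply ℝ ℝ j

theorem chart_ne (i : Fin 4) (y : Fin 3 → ℝ) : ‖chart i y‖ ^ 2 ≠ 0 := by
  intro h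
  have h1 := congrArg (fun v : EuclideanSpace ℝ (Fin 4) => v i)
    (norm_eq_zero.1 (pow_eq_zero_iff two_ne_zero |>.1 h))
  simp [chart] at h1

theorem contDiff_phi : ContDiff ℝ 1 phi := by
  have hc : ∀ j : Fin 4, ContDiff ℝ 1 fun x : EuclideanSpace ℝ (Fin 4) => x j :=
    contDiff_euclidean.1 contDiff_id
  have h0 := hc 0
  have h1 := hc 1
  have h2 := hc 2
  have h3 := hc 3
  refine contDiff_euclidean.2 fun j => ?_
  fin_cases j <;> simp [phi] <;> fun_prop

theorem dimH_phi : dimH (phi '' sphere 0 1) ≤ 3 := by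
  have hsub : phi '' sphere 0 1 ⊆
      ⋃ i : Fin 4, range fun y => (‖chart i y‖ ^ 2)⁻¹ • phi (chart i y) := by
    rintro _ ⟨x, hx, rfl⟩
    have hx1 : ‖x‖ = 1 := by simpa using hx
    obtain ⟨i, hi⟩ : ∃ i, x i ≠ 0 := by
      by_contra hcon
      push Not at hcon
      have : x = 0 := by ext i; exact hcon i
      rw [this, norm_zero] at hx1
      exact zero_ne_one hx1
    have e : chart i (fun j => (x i)⁻¹ * x (i.succAbove j)) = (x i)⁻¹ • x := by
      ext j
      induction j using Fin.succAboveCases i with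
      | x => simp [chart, hi]
      | p j => simp [chart]
    refine mem_iUnion.2 ⟨i, fun j => (x i)⁻¹ * x (i.succAbove j), ?_⟩
    beta_reduce
    rw [e, phi_smul, norm_smul, hx1, mul_one, Real.norm_eq_abs, sq_abs, smul_smul,
      inv_mul_cancel₀ (pow_ne_zero 2 (inv_ne_zero hi)), one_smul]
  refine (dimH_mono hsub).trans ?_
  rw [dimH_iUnion]
  refine iSup_le fun i => ?_
  have h1 : ContDiff ℝ 1 fun y => (‖chart i y‖ ^ 2)⁻¹ • phi (chart i y) :=
    (((contDiff_chart i).norm_sq ℝ).inv (chart_ne i)).smul (contDiff_phi.comp (contDiff_chart i))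
  simpa using h1.dimH_range_le

theorem good3_nine : Good3 9 11 := by
  refine ⟨phi '' sphere 0 1, √2, √3 / 2, 0, (isCompact_sphere 0 1).image continuous_phi,
    by positivity, ?_, ?_, ?_, dimH_phi, ?_⟩
  · rw [div_pow, Real.sq_sqrt (by norm_num), Real.sq_sqrt (by norm_num)]
    norm_num
  · rintro _ ⟨x, hx, rfl⟩
    have hx1 : ‖x‖ = 1 := by simpa using hx
    rw [dist_zero_right, ← real_inner_self_eq_norm_sq, inner_phi, real_inner_self_eq_norm_sq,
      hx1, div_pow, Real.sq_sqrt (by norm_num)]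
    norm_num
  · rintro _ ⟨x, hx, rfl⟩ _ ⟨y, hy, rfl⟩
    apply Real.le_sqrt_of_sq_le
    rw [dist_phi_sq (by simpa using hx) (by simpa using hy)]
    nlinarith only [sq_nonneg (inner ℝ x y : ℝ)]
  · intro m P δ hδ hP hsub
    by_contra hm
    rw [← Vale.Agent.P052X.preimage_emb] at hsub
    obtain ⟨i, hi⟩ := Vale.Agent.P052X.cover_preimage
      (fun j => if h : j.val < m then P ⟨j.val, h⟩ else ∅) (fun y hy => by
        obtain ⟨j, hj⟩ := mem_iUnion.1 (hsub hy)
        exact mem_iUnion.2 ⟨⟨j.val, by omega⟩, by simpa using hj⟩)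
    have h1 : √2 ≤ max δ 0 := by
      rw [← hi]
      refine diam_le_of_forall_dist_le (le_max_right _ _) fun y hy z hz => ?_
      have h2 := hy.1
      have h3 := hz.1
      split_ifs at h2 h3 with h
      · exact (hP _ y h2 z h3).trans (le_max_left _ _)
      · exact absurd h2 (notMem_empty y)
    exact absurd (max_lt hδ (by positivity)) (not_lt.2 h1)

theorem good3 (n : ℕ) : Good3 (9 + n) (11 + n) := by
  induction n with
  | zero => exact good3_nine
  | succ n ih => exact ih.succ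

theorem Good3.out {d : ℕ} (h : Good3 d (d + 2)) : ∃ Y : Set (EuclideanSpace ℝ (Fin d)),
    IsCompact Y ∧ 0 < diam Y ∧ dimH Y ≤ 3 ∧ (d : ℕ∞) + 1 < bSet Y := by
  obtain ⟨Y, D, ρ, c, hcpt, hD, -, -, hle, hdim, hcov⟩ := h
  have hb := hcpt.isBounded
  have hdiam : diam Y ≤ D := diam_le_of_forall_dist_le hD.le hle
  refine ⟨Y, hcpt, ?_, hdim, lt_of_lt_of_le (b := ((d + 2 : ℕ) : ℕ∞)) ?_ (le_bSet ?_)⟩
  · by_contra hcon
    have h1 := hcov 1 (fun _ => Y) 0 hD (fun _ y hy z hz =>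
      (dist_le_diam_of_mem hb hy hz).trans (not_lt.1 hcon)) fun y hy => mem_iUnion.2 ⟨0, hy⟩
    omega
  · exact_mod_cast Nat.lt_succ_self (d + 1)
  · rintro k ⟨f, hf⟩
    obtain ⟨i₀, hi₀⟩ := @Finite.exists_max _ _ _ ⟨f c⟩ _ fun i => diam {y ∈ Y | f y = i}
    exact Nat.cast_le.2 (hcov k (fun i => {y ∈ Y | f y = i}) _ ((hf i₀).trans_le hdiam)
      (fun i y hy z hz => (dist_le_diam_of_mem (hb.subset (sep_subset _ _)) hy hz).trans (hi₀ i))
      fun y hy => mem_iUnion.2 ⟨f y, hy, rfl⟩)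

theorem body_of {d : ℕ} {Y : Set (EuclideanSpace ℝ (Fin d))} (hY : IsCompact Y) (hpos : 0 < diam Y)
    (hb : (d : ℕ∞) + 1 < bSet Y) : ∃ (C : ConvexBody (EuclideanSpace ℝ (Fin d))) (D : ℝ),
      0 < D ∧ ConstWidth C D ∧ diam (C : Set (EuclideanSpace ℝ (Fin d))) = D ∧ sing C ⊆ Y ∧
        (d : ℕ∞) + 1 < bSet (C : Set (EuclideanSpace ℝ (Fin d))) := by
  obtain ⟨C, -, c2, c3, c4, -, c6⟩ := completion hY hpos
  exact ⟨C, _, hpos, c2, c3, c4, by rw [c6]; exact hb.trans_le (le_max_right _ _)⟩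

theorem body_nine {d : ℕ} (hd : 9 ≤ d) : ∃ (C : ConvexBody (EuclideanSpace ℝ (Fin d))) (D : ℝ),
    0 < D ∧ ConstWidth C D ∧ diam (C : Set (EuclideanSpace ℝ (Fin d))) = D ∧ dimH (sing C) ≤ 3 ∧
      (63 ≤ d → (sing C).Finite) ∧ (d : ℕ∞) + 1 < bSet (C : Set (EuclideanSpace ℝ (Fin d))) := by
  by_cases h63 : 63 ≤ d
  · obtain ⟨Y, hY, hpos, hb⟩ := exists_all d h63
    obtain ⟨C, D, c1, c2, c3, c4, c5⟩ := body_of hY.isCompact hpos (by
      rw [bSet_eq hY.isBounded hpos (exists_cover hY.isCompact hpos), ← borsukNumber_eq]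
      exact_mod_cast hb)
    refine ⟨C, D, c1, c2, c3, ?_, fun _ => hY.subset c4, c5⟩
    rw [(hY.subset c4).dimH_zero]
    exact zero_le
  · obtain ⟨n, rfl⟩ := Nat.exists_eq_add_of_le hd
    have h := good3 n
    rw [show 11 + n = 9 + n + 2 by omega] at h
    obtain ⟨Y, hY, hpos, hdim, hb⟩ := h.out
    obtain ⟨C, D, c1, c2, c3, c4, c5⟩ := body_of hY hpos hb
    exact ⟨C, D, c1, c2, c3, (dimH_mono c4).trans hdim, fun h => absurd h h63, c5⟩

theorem le_bDim {d : ℕ} {Y : Set (EuclideanSpace ℝ (Fin d))} (hb : IsBounded Y)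
    (hpos : 0 < diam Y) : bSet Y ≤ bDim d :=
  le_iSup₂ (f := fun (Y : Set (EuclideanSpace ℝ (Fin d))) (_ : IsBounded Y ∧ 0 < diam Y) => bSet Y)
    Y ⟨hb, hpos⟩

theorem bDim_le {d k : ℕ} (h : ∀ Y : Set (EuclideanSpace ℝ (Fin d)), IsBounded Y → 0 < diam Y →
    IsSmallerCover Y k) : bDim d ≤ k :=
  iSup₂_le fun Y hY => bSet_le ((splits_iff hY.1 hY.2).2 (h Y hY.1 hY.2))

theorem bDim_pow (d : ℕ) : bDim d ≤ 2 ^ d := by
  have h := bDim_le (d := d) (k := 0 + 2 ^ (d - 0)) fun Y hb hpos =>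
    Vale.Agent.P052.H768.main_orthants hb hpos Fin.elim0 Fin.elim0 (fun i => i.elim0) linearIndependent_empty_type
      fun i => i.elim0
  simpa using h

theorem bDim_ge {d : ℕ} (hd : 1 ≤ d) : (d : ℕ∞) + 1 ≤ bDim d := by
  have hpos : 0 < diam ({0, EuclideanSpace.single ⟨0, hd⟩ 1} : Set (EuclideanSpace ℝ (Fin d))) := by
    rw [diam_pair]
    simp
  obtain ⟨C, -, -, c3, -, -, c6⟩ := completion (toFinite _).isCompact hpos
  refine le_trans ?_ (le_bDim C.isCompact.isBounded (c3 ▸ hpos))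
  rw [c6, finrank_euclideanSpace_fin]
  exact le_max_left _ _

theorem bDim_small {d : ℕ} (hd : d ≤ 3) : bDim d ≤ d + 1 := by
  have h := bDim_le (d := d) (k := d + 1) fun Y hb hpos => by
    by_cases h3 : d = 0 + 3
    · exact Vale.Agent.P052.H768.main_three_irred h3 hb hpos Fin.elim0 Fin.elim0 (fun i => i.elim0)
        linearIndependent_empty_type (fun i => i.elim0) (fun J ⟨i, _⟩ => i.elim0)
        fun x _ => ⟨x, fun i => i.elim0, by simpa using hpos.le⟩
    by_cases h2 : d = 0 + 2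
    · exact Vale.Agent.P052.H768.main_two_small h2 (by omega) hb hpos Fin.elim0 Fin.elim0 (fun i => i.elim0)
        linearIndependent_empty_type fun i => i.elim0
    · exact Vale.Agent.P052.H768.main hb hpos Fin.elim0 Fin.elim0 (fun i => i.elim0)
        linearIndependent_empty_type (fun i => i.elim0) (Or.inl (by omega))
  exact_mod_cast h

theorem bDim_big {d : ℕ} (hd : 9 ≤ d) : (d : ℕ∞) + 1 < bDim d := by
  obtain ⟨C, D, c1, -, c3, -, -, c6⟩ := body_nine hd
  exact c6.trans_le (le_bDim C.isCompact.isBounded (c3 ▸ c1))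

theorem dStar_bounds : 4 ≤ dStar ∧ dStar ≤ 9 := by
  refine ⟨?_, Nat.sInf_le (bDim_big le_rfl)⟩
  by_contra hcon
  have h1 : (dStar : ℕ∞) + 1 < bDim dStar :=
    Nat.sInf_mem (s := {d : ℕ | (d : ℕ∞) + 1 < bDim d}) ⟨9, bDim_big le_rfl⟩
  exact absurd h1 (not_lt.2 (bDim_small (by omega)))

/-- the map `A ↦ P A Q` -/
noncomputable def act (P Q : Matrix (Fin 3) (Fin 3) ℝ) (A : EuclideanSpace ℝ (Fin 3 × Fin 3)) :
    EuclideanSpace ℝ (Fin 3 × Fin 3) :=
  WithLp.toLp 2 fun p => (P * Matrix.of (fun i j => A (i, j)) * Q) p.1 p.2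

theorem act_of (P Q : Matrix (Fin 3) (Fin 3) ℝ) (A : EuclideanSpace ℝ (Fin 3 × Fin 3)) :
    Matrix.of (fun i j => act P Q A (i, j)) = P * Matrix.of (fun i j => A (i, j)) * Q := rfl

theorem act_act {P Q P' Q' : Matrix (Fin 3) (Fin 3) ℝ} (h : P' * P = 1) (h' : Q * Q' = 1)
    (A : EuclideanSpace ℝ (Fin 3 × Fin 3)) : act P' Q' (act P Q A) = A := by
  ext p
  change (P' * Matrix.of (fun i j => act P Q A (i, j)) * Q') p.1 p.2 = _
  rw [act_of, ← mul_assoc, ← mul_assoc, h, one_mul, mul_assoc, h', mul_one]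
  rfl

theorem dist_trace (A B : EuclideanSpace ℝ (Fin 3 × Fin 3)) : dist A B ^ 2 =
    ((Matrix.of (fun i j => A (i, j)) - Matrix.of (fun i j => B (i, j))).transpose *
      (Matrix.of (fun i j => A (i, j)) - Matrix.of (fun i j => B (i, j)))).trace := by
  rw [EuclideanSpace.dist_sq_eq]
  simp [Matrix.trace, Matrix.mul_apply, Fintype.sum_prod_type, Fin.sum_univ_three, Real.dist_eq]
  ring

theorem isometry_act {P Q : Matrix (Fin 3) (Fin 3) ℝ} (h : P.transpose * P = 1)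
    (h' : Q * Q.transpose = 1) : Isometry (act P Q) := by
  refine Isometry.of_dist_eq fun A B => (pow_left_inj₀ dist_nonneg dist_nonneg two_ne_zero).1 ?_
  rw [dist_trace, dist_trace, act_of, act_of, ← sub_mul, ← mul_sub]
  generalize Matrix.of (fun i j => A (i, j)) - Matrix.of (fun i j => B (i, j)) = M
  rw [Matrix.transpose_mul, Matrix.transpose_mul, Matrix.trace_mul_comm]
  calc (P * M * Q * (Q.transpose * (M.transpose * P.transpose))).trace
      = (P * M * (Q * Q.transpose) * (M.transpose * P.transpose)).trace := by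
        simp only [mul_assoc]
    _ = (M.transpose * (P.transpose * P) * M).trace := by
        rw [h', mul_one, Matrix.trace_mul_comm]
        simp only [mul_assoc]
    _ = _ := by rw [h, mul_one]

theorem act_mem {P Q : Matrix (Fin 3) (Fin 3) ℝ} (hP : P ∈ Matrix.specialOrthogonalGroup (Fin 3) ℝ)
    (hQ : Q ∈ Matrix.specialOrthogonalGroup (Fin 3) ℝ) {A : EuclideanSpace ℝ (Fin 3 × Fin 3)}
    (hA : A ∈ so3) : act P Q A ∈ so3 :=
  mul_mem (mul_mem hP hA) hQ

theorem tr_mem {P : Matrix (Fin 3) (Fin 3) ℝ} (hP : P ∈ Matrix.specialOrthogonalGroup (Fin 3) ℝ) :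
    P.transpose ∈ Matrix.specialOrthogonalGroup (Fin 3) ℝ ∧ P.transpose * P = 1 ∧
      P * P.transpose = 1 := by
  rw [Matrix.mem_specialOrthogonalGroup_iff] at hP ⊢
  have h1 := (Matrix.mem_orthogonalGroup_iff _ _).1 hP.1
  have h2 := (Matrix.mem_orthogonalGroup_iff' _ _).1 hP.1
  exact ⟨⟨(Matrix.mem_orthogonalGroup_iff _ _).2 (by rwa [Matrix.transpose_transpose]),
    by rw [Matrix.det_transpose, hP.2]⟩, h2, h1⟩

theorem far_mem {R : EuclideanSpace ℝ (Fin 3 × Fin 3)} (hR : R ∈ so3) (s : Fin 3 → ℝ)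
    (hs : ∀ i, s i * s i = 1) (h1 : s 0 * s 1 * s 2 = 1) (h2 : s 0 + s 1 + s 2 = -1) :
    act 1 (Matrix.diagonal s) R ∈ so3 ∧ dist R (act 1 (Matrix.diagonal s) R) = 2 * √2 := by
  refine ⟨act_mem (one_mem _) ?_ hR, ?_⟩
  · rw [Matrix.mem_specialOrthogonalGroup_iff, Matrix.mem_orthogonalGroup_iff,
      Matrix.diagonal_transpose, Matrix.diagonal_mul_diagonal, Matrix.det_diagonal,
      Fin.prod_univ_three]
    exact ⟨by simp [hs], h1⟩
  · have H := so_of_mem hR
    refine (pow_left_inj₀ dist_nonneg (by positivity) two_ne_zero).1 ?_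
    rw [EuclideanSpace.dist_sq_eq, mul_pow, s2]
    simp [act, Fintype.sum_prod_type, Fin.sum_univ_three, Real.dist_eq]
    linear_combination (1 - s 0) ^ 2 * H.b00 + (1 - s 1) ^ 2 * H.b11 + (1 - s 2) ^ 2 * H.b22 +
      hs 0 + hs 1 + hs 2 - 2 * h2

/-- **The body of constant width spanned by the rotation group.** -/
theorem body_so3 : ∃ C : ConvexBody (EuclideanSpace ℝ (Fin 3 × Fin 3)), ConstWidth C (2 * √2) ∧
    sing C = so3 ∧ (∀ P ∈ Matrix.specialOrthogonalGroup (Fin 3) ℝ,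
      ∀ Q ∈ Matrix.specialOrthogonalGroup (Fin 3) ℝ, ∀ A ∈ C, ∃ B ∈ C,
        Matrix.of (fun i j => B (i, j)) = P * Matrix.of (fun i j => A (i, j)) * Q) ∧
    bSet (C : Set (EuclideanSpace ℝ (Fin 3 × Fin 3))) = 11 := by
  have hc : IsCompact so3 := isCompact_rot3
  have hd : diam so3 = 2 * √2 := diam_rot3
  have hpos : 0 < diam so3 := by rw [hd]; positivity
  obtain ⟨C, c1, c2, -, c4, c5, c6⟩ := completion hc hpos
  rw [hd] at c2
  refine ⟨C, c2, c4.antisymm fun R hR => ?_, fun P hP Q hQ A hA => ?_, ?_⟩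
  · obtain ⟨a1, a2⟩ := far_mem hR ![1, -1, -1] (fun i => by fin_cases i <;> simp) (by simp)
      (by simp)
    obtain ⟨b1, b2⟩ := far_mem hR ![-1, 1, -1] (fun i => by fin_cases i <;> simp) (by simp)
      (by simp)
    refine (wd_of_constWidth (by positivity) c2).far_sing (c1 hR) (c1 a1) (c1 b1) (fun e => ?_) a2 b2
    have H := (so_of_mem hR).b00
    have e0 := congrArg (fun v : EuclideanSpace ℝ (Fin 3 × Fin 3) => v (0, 0)) e
    have e1 := congrArg (fun v : EuclideanSpace ℝ (Fin 3 × Fin 3) => v (1, 0)) e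
    have e2 := congrArg (fun v : EuclideanSpace ℝ (Fin 3 × Fin 3) => v (2, 0)) e
    simp [act] at e0 e1 e2
    nlinarith
  · obtain ⟨p1, p2, p3⟩ := tr_mem hP
    obtain ⟨q1, q2, q3⟩ := tr_mem hQ
    let g : EuclideanSpace ℝ (Fin 3 × Fin 3) ≃ᵢ EuclideanSpace ℝ (Fin 3 × Fin 3) :=
      ⟨⟨act P Q, act P.transpose Q.transpose, act_act p2 q3, act_act p3 q2⟩, isometry_act p2 q3⟩
    have hg : g '' so3 = so3 := by
      refine subset_antisymm ?_ fun R hR => ⟨_, act_mem p1 q1 hR, act_act p3 q2 R⟩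
      rintro _ ⟨R, hR, rfl⟩
      exact act_mem hP hQ hR
    refine ⟨g A, ?_, act_of P Q A⟩
    change g A ∈ (C : Set _)
    rw [← c5 g hg]
    exact mem_image_of_mem g hA
  · rw [c6, bSet_eq hc.isBounded hpos (exists_cover hc hpos)]
    have h1 : bNum so3 = 11 := bNum_rot3
    rw [h1, finrank_euclideanSpace]
    norm_num

end Vale.Agent.N052.CW
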