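import Vale.Agent.N052.CWEx

/-!
# P052: Borsuk's problem is a uniform problem on finite sets
-/

namespace Vale.Agent.N052.CW

open Set Metric Bornology TopologicalSpace Filter

theorem ratio_of_bDim {d k : ℕ} (hk : 1 ≤ k) (h : bDim d ≤ k) {K : Set (EuclideanSpace ℝ (Fin d))}
    (hb : IsBounded K) (h1 : diam K ≤ 1) : ∃ (c : EuclideanSpace ℝ (Fin d) → Fin k) (σ : ℝ),
      σ < 1 ∧ ∀ x ∈ K, ∀ y ∈ K, c x = c y → dist x y ≤ σ := by
  rcases (diam_nonneg (s := K)).eq_or_lt with h0 | hpos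
  · exact ⟨fun _ => ⟨0, hk⟩, 0, zero_lt_one, fun x hx y hy _ =>
      (dist_le_diam_of_mem hb hx hy).trans h0.ge⟩
  have h2 := (le_bDim hb hpos).trans h
  obtain ⟨m, hm, e⟩ := exists_splits (ne_top_of_le_ne_top (ENat.natCast_ne_top k) h2)
  rw [e] at h2
  obtain ⟨c, hc⟩ := hm.mono hpos (Nat.cast_le.1 h2)
  obtain ⟨i₀, hi₀⟩ := @Finite.exists_max _ _ _ ⟨c 0⟩ _ fun i => diam {y ∈ K | c y = i}
  refine ⟨c, _, (hc i₀).trans_le h1, fun x hx y hy hxy => le_trans ?_ (hi₀ (c y))⟩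
  exact dist_le_diam_of_mem (s := {z ∈ K | c z = c y}) (hb.subset (sep_subset _ _)) ⟨hx, hxy⟩
    ⟨hy, rfl⟩

theorem bDim_iff {d k : ℕ} (hk : 1 ≤ k) : bDim d ≤ k ↔ ∃ ρ : ℝ, ρ < 1 ∧
    ∀ F : Set (EuclideanSpace ℝ (Fin d)), F.Finite → ∃ c : EuclideanSpace ℝ (Fin d) → Fin k,
      ∀ x ∈ F, ∀ y ∈ F, c x = c y → dist x y ≤ ρ * diam F := by
  constructor
  · intro h
    by_contra hcon
    push Not at hcon
    have key : ∀ n : ℕ, ∃ G : NonemptyCompacts (EuclideanSpace ℝ (Fin d)),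
        (G : Set (EuclideanSpace ℝ (Fin d))) ⊆ closedBall 0 1 ∧ (∀ x ∈ G, ∀ y ∈ G, dist x y ≤ 1) ∧
        ∀ c : EuclideanSpace ℝ (Fin d) → Fin k, ∃ x ∈ G, ∃ y ∈ G, c x = c y ∧
          1 - 1 / ((n : ℝ) + 1) < dist x y := by
      intro n
      obtain ⟨F, hF, H⟩ := hcon (1 - 1 / ((n : ℝ) + 1)) (by
        have : 0 < 1 / ((n : ℝ) + 1) := by positivity
        linarith)
      obtain ⟨p, hp, q, hq, -, hpq⟩ := H fun _ => ⟨0, hk⟩
      have hpos : 0 < diam F := by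
        rcases (diam_nonneg (s := F)).eq_or_lt with h0 | h0
        · have := dist_le_diam_of_mem hF.isBounded hp hq
          rw [← h0] at this hpq
          linarith
        · exact h0
      have hd : ∀ x y : EuclideanSpace ℝ (Fin d),
          dist ((diam F)⁻¹ • (x - p)) ((diam F)⁻¹ • (y - p)) = (diam F)⁻¹ * dist x y := by
        intro x y
        rw [dist_smul₀, dist_sub_right, norm_inv, Real.norm_eq_abs, abs_of_pos hpos]
      have hle : ∀ x ∈ F, ∀ y ∈ F,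
          dist ((diam F)⁻¹ • (x - p)) ((diam F)⁻¹ • (y - p)) ≤ 1 := by
        intro x hx y hy
        rw [hd, inv_mul_le_iff₀ hpos, mul_one]
        exact dist_le_diam_of_mem hF.isBounded hx hy
      refine ⟨⟨⟨(fun x => (diam F)⁻¹ • (x - p)) '' F, (hF.image _).isCompact⟩, ⟨_, p, hp, rfl⟩⟩,
        ?_, ?_, fun c => ?_⟩
      · rintro _ ⟨x, hx, rfl⟩
        simpa using hle x hx p hp
      · rintro _ ⟨x, hx, rfl⟩ _ ⟨y, hy, rfl⟩
        exact hle x hx y hy
      · obtain ⟨x, hx, y, hy, e, hlt⟩ := H fun x => c ((diam F)⁻¹ • (x - p))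
        refine ⟨_, ⟨x, hx, rfl⟩, _, ⟨y, hy, rfl⟩, e, ?_⟩
        rw [hd, lt_inv_mul_iff₀ hpos]
        linarith
    choose G hG1 hG2 hG3 using key
    obtain ⟨K, -, φ, hφ, hlim⟩ := (NonemptyCompacts.isCompact_subsets_of_isCompact
      (isCompact_closedBall (0 : EuclideanSpace ℝ (Fin d)) 1)).tendsto_subseq hG1
    have hfin : ∀ A B : NonemptyCompacts (EuclideanSpace ℝ (Fin d)),
        hausdorffEDist (A : Set (EuclideanSpace ℝ (Fin d))) B ≠ ⊤ := fun A B =>
      hausdorffEDist_ne_top_of_nonempty_of_bounded A.nonempty B.nonempty A.isCompact.isBounded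
        B.isCompact.isBounded
    have hev : ∀ η : ℝ, 0 < η → ∀ᶠ n in atTop,
        hausdorffDist (G (φ n) : Set (EuclideanSpace ℝ (Fin d))) K < η := fun η hη =>
      Metric.tendsto_nhds.1 hlim η hη
    obtain ⟨c, σ, hσ, hc⟩ := ratio_of_bDim hk h K.isCompact.isBounded (diam_le_of_forall_dist_le
      zero_le_one fun x hx y hy => le_of_forall_pos_le_add fun η hη => by
        obtain ⟨n, hn⟩ := (hev (η / 2) (by linarith)).exists
        obtain ⟨x', hx', h1⟩ := exists_dist_lt_of_hausdorffDist_lt' hx hn (hfin _ _)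
        obtain ⟨y', hy', h2⟩ := exists_dist_lt_of_hausdorffDist_lt' hy hn (hfin _ _)
        linarith [dist_triangle4 x x' y' y, hG2 _ x' hx' y' hy', dist_comm x x'])
    have h3 : ∀ᶠ n in atTop, 1 / ((φ n : ℝ) + 1) < (1 - σ) / 3 :=
      (tendsto_one_div_add_atTop_nhds_zero_nat.comp hφ.tendsto_atTop).eventually
        (gt_mem_nhds (by linarith))
    obtain ⟨n, hn, hn'⟩ := ((hev ((1 - σ) / 3) (by linarith)).and h3).exists
    choose! r hr1 hr2 using fun x (hx : x ∈ (G (φ n) : Set (EuclideanSpace ℝ (Fin d)))) =>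
      exists_dist_lt_of_hausdorffDist_lt hx hn (hfin _ _)
    obtain ⟨x, hx, y, hy, e, hlt⟩ := hG3 (φ n) fun x => c (r x)
    linarith [dist_triangle4 x (r x) (r y) y, hc _ (hr1 x hx) _ (hr1 y hy) e, hr2 x hx, hr2 y hy,
      dist_comm y (r y)]
  · rintro ⟨ρ, hρ, H⟩
    refine iSup₂_le fun Y hY => bSet_le ?_
    classical
    choose g hg using fun t : Finset (EuclideanSpace ℝ (Fin d)) =>
      H (↑t ∩ Y) (t.finite_toSet.inter_of_left Y)
    obtain ⟨c, hc⟩ := Finset.rado_selection g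
    refine ⟨c, fun i => lt_of_le_of_lt (diam_le_of_forall_dist_le (C := max ρ 0 * diam Y)
      (mul_nonneg (le_max_right _ _) diam_nonneg) ?_)
      (mul_lt_of_lt_one_left hY.2 (max_lt hρ zero_lt_one))⟩
    rintro x ⟨hx, ex⟩ y ⟨hy, ey⟩
    obtain ⟨t, ht, h1⟩ := hc {x, y}
    have h2 := hg t x ⟨ht (by simp), hx⟩ y ⟨ht (by simp), hy⟩ (by
      rw [← h1 x (by simp), ← h1 y (by simp), ex, ey])
    exact h2.trans (mul_le_mul (le_max_left _ _) (diam_mono inter_subset_right hY.1) diam_nonneg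
      (le_max_right _ _))

end Vale.Agent.N052.CW
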