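import Vale.Agent.N052.CWDefs
import Vale.Agent.N052.CWAvg
import Vale.Agent.N052.Main
import Vale.Agent.P052.H342.CoreMain

/-!
# P052: Borsuk numbers of bodies of constant width
-/

set_option linter.unusedSectionVars false

namespace Vale.Agent.N052.CW

open Set Metric Bornology
open scoped RealInnerProductSpace

section general

variable {X : Type} [PseudoMetricSpace X] {Y : Set X} {k : ℕ}

theorem nonempty_of_diam (hpos : 0 < diam Y) : Y.Nonempty := by
  rw [nonempty_iff_ne_empty]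
  rintro rfl
  simp at hpos

theorem splits_of_cover (hpos : 0 < diam Y) {P : Fin k → Set X} (hb : ∀ i, IsBounded (P i))
    (hd : ∀ i, diam (P i) < diam Y) (hP : Y ⊆ ⋃ i, P i) : Splits Y k := by
  classical
  obtain ⟨y₀, hy₀⟩ := nonempty_of_diam hpos
  obtain ⟨i₀, -⟩ := mem_iUnion.1 (hP hy₀)
  refine ⟨fun y => if h : ∃ i, y ∈ P i then h.choose else i₀, fun i => ?_⟩
  refine lt_of_le_of_lt (diam_mono ?_ (hb i)) (hd i)
  rintro y ⟨hy, hc⟩
  have h : ∃ i, y ∈ P i := mem_iUnion.1 (hP hy)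
  simp only [dif_pos h] at hc
  exact hc ▸ h.choose_spec

theorem splits_iff (hb : IsBounded Y) (hpos : 0 < diam Y) : Splits Y k ↔ SmallerCover Y k := by
  constructor
  · rintro ⟨c, hc⟩
    refine ⟨fun i => {y ∈ Y | c y = i}, ?_, hc⟩
    ext y
    simp
  · rintro ⟨P, hP, hd⟩
    exact splits_of_cover hpos (fun i => hb.subset (hP ▸ subset_iUnion P i)) hd hP.ge

theorem bSet_le (h : Splits Y k) : bSet Y ≤ k := iInf₂_le k h

theorem le_bSet {n : ℕ∞} (h : ∀ k, Splits Y k → n ≤ k) : n ≤ bSet Y := le_iInf₂ h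

theorem bSet_eq (hb : IsBounded Y) (hpos : 0 < diam Y) (hex : ∃ k, SmallerCover Y k) :
    bSet Y = bNum Y :=
  le_antisymm (bSet_le ((splits_iff hb hpos).2
    (Nat.sInf_mem (s := {k : ℕ | SmallerCover Y k}) hex)))
    (le_bSet fun _ hk => Nat.cast_le.2 (Nat.sInf_le ((splits_iff hb hpos).1 hk)))

theorem Splits.mono (h : Splits Y k) (hpos : 0 < diam Y) {m : ℕ} (hkm : k ≤ m) : Splits Y m := by
  obtain ⟨c, hc⟩ := h
  refine ⟨fun y => Fin.castLE hkm (c y), fun j => ?_⟩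
  by_cases hj : ∃ i, Fin.castLE hkm i = j
  · obtain ⟨i, rfl⟩ := hj
    simpa only [Fin.castLE_inj] using hc i
  · have : {y ∈ Y | Fin.castLE hkm (c y) = j} = ∅ :=
      eq_empty_of_forall_notMem fun y hy => hj ⟨_, hy.2⟩
    rw [this, diam_empty]
    exact hpos

theorem Splits.sub (h : Splits Y k) (hb : IsBounded Y) {Z : Set X} (hZ : Z ⊆ Y)
    (hd : diam Z = diam Y) : Splits Z k := by
  obtain ⟨c, hc⟩ := h
  refine ⟨c, fun i => lt_of_le_of_lt (diam_mono ?_ (hb.subset (sep_subset _ _))) (hd ▸ hc i)⟩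
  exact fun y hy => ⟨hZ hy.1, hy.2⟩

theorem exists_splits (h : bSet Y ≠ ⊤) : ∃ k : ℕ, Splits Y k ∧ bSet Y = k := by
  classical
  have hex : ∃ k, Splits Y k := by
    by_contra hcon
    push Not at hcon
    exact h (top_unique (le_bSet fun k hk => absurd hk (hcon k)))
  exact ⟨Nat.find hex, Nat.find_spec hex, le_antisymm (bSet_le (Nat.find_spec hex))
    (le_bSet fun _ hk => Nat.cast_le.2 (Nat.find_min' hex hk))⟩

end general

variable {E : Type} [NormedAddCommGroup E] [InnerProductSpace ℝ E] [FiniteDimensional ℝ E]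

/-- The theorem of Lusternik and Schnirelmann. -/
theorem ls (hd : 1 ≤ Module.finrank ℝ E) {k : ℕ} (F : Fin k → Set E) (hF : ∀ i, IsClosed (F i))
    (hcov : ∀ u : E, ‖u‖ = 1 → ∃ i, u ∈ F i)
    (hno : ∀ u : E, ‖u‖ = 1 → ∀ i, u ∈ F i → -u ∉ F i) : Module.finrank ℝ E + 1 ≤ k := by
  by_contra hcon
  have : Nontrivial E := Module.nontrivial_of_finrank_pos (R := ℝ) hd
  obtain ⟨u₀, hu₀⟩ := exists_norm_eq E zero_le_one
  obtain ⟨i₀, -⟩ := hcov u₀ hu₀
  obtain ⟨m, rfl⟩ : ∃ m, k = m + 1 := ⟨k - 1, by have := i₀.pos; omega⟩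
  obtain ⟨u, hu, h0⟩ := Vale.Agent.P135.borsuk_ulam_sphere (E := E) (F := Fin m → ℝ)
    (by rw [Module.finrank_fin_fun]; omega)
    (fun u i => infDist u (F i.castSucc) - infDist (-u) (F i.castSucc))
    (continuous_pi fun i => (continuous_infDist_pt _).sub
      ((continuous_infDist_pt _).comp continuous_neg)).continuousOn (fun u _ => by
        funext i
        simp)
  rw [mem_sphere_zero_iff_norm] at hu
  have hu' : ‖-u‖ = 1 := by rw [norm_neg, hu]
  have key : ∀ i : Fin m, infDist u (F i.castSucc) = infDist (-u) (F i.castSucc) :=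
    fun i => sub_eq_zero.1 (congrFun h0 i)
  have h1 : u ∈ F (Fin.last m) := by
    obtain ⟨i, hi⟩ := hcov u hu
    induction i using Fin.lastCases with
    | last => exact hi
    | cast i =>
      refine absurd ?_ (hno u hu _ hi)
      rw [(hF _).mem_iff_infDist_zero ⟨u, hi⟩, ← key, infDist_zero_of_mem hi]
  have h2 : -u ∈ F (Fin.last m) := by
    obtain ⟨i, hi⟩ := hcov _ hu'
    induction i using Fin.lastCases with
    | last => exact hi
    | cast i =>
      refine absurd hi (hno u hu _ ?_)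
      rw [(hF _).mem_iff_infDist_zero ⟨_, hi⟩, key, infDist_zero_of_mem hi]
  exact hno u hu _ h1 h2

/-- If the highest and the lowest points of `X` in any direction are at maximal distance, then `X`
needs `d + 1` parts. -/
theorem lower (hd : 1 ≤ Module.finrank ℝ E) {X : Set E} (hX : IsCompact X) (hne : X.Nonempty)
    (H : ∀ u : E, ‖u‖ = 1 → ∀ x ∈ X, ∀ y ∈ X, (∀ w ∈ X, ⟪u, w⟫ ≤ ⟪u, x⟫) →
      (∀ w ∈ X, ⟪-u, w⟫ ≤ ⟪-u, y⟫) → diam X ≤ dist x y) {k : ℕ} (hk : Splits X k) :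
    Module.finrank ℝ E + 1 ≤ k := by
  obtain ⟨c, hc⟩ := hk
  have hK : ∀ i, closure {y ∈ X | c y = i} ⊆ X := fun i =>
    closure_minimal (sep_subset _ _) hX.isClosed
  refine ls hd (fun i => {u | ∃ x ∈ closure {y ∈ X | c y = i}, ∀ w ∈ X, ⟪u, w⟫ ≤ ⟪u, x⟫})
    (fun i => ?_) (fun u _ => ?_) ?_
  · have hKc : IsCompact (closure {y ∈ X | c y = i}) := hX.of_isClosed_subset isClosed_closure (hK i)
    have := isCompact_iff_compactSpace.1 hKc
    have h1 : IsClosed {q : E × closure {y ∈ X | c y = i} | ∀ w ∈ X, ⟪q.1, w⟫ ≤ ⟪q.1, q.2.1⟫} := by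
      simp only [ofPred_forall]
      exact isClosed_iInter fun w => isClosed_iInter fun _ => isClosed_le (by fun_prop) (by fun_prop)
    convert isClosedMap_fst_of_compactSpace _ h1 using 1
    ext u
    constructor
    · rintro ⟨x, hx, h⟩
      exact ⟨(u, ⟨x, hx⟩), h, rfl⟩
    · rintro ⟨q, h, rfl⟩
      exact ⟨q.2.1, q.2.2, h⟩
  · obtain ⟨h1, h2⟩ := top_spec hX hne u
    exact ⟨c (top X u), top X u, subset_closure ⟨h1, rfl⟩, h2⟩
  · rintro u hu i ⟨x, hx, h1⟩ ⟨y, hy, h2⟩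
    have h3 := H u hu x (hK i hx) y (hK i hy) h1 h2
    have h4 := dist_le_diam_of_mem (hX.isBounded.subset (hK i)) hx hy
    rw [diam_closure] at h4
    linarith [hc i]

/-- The reduction to the points with two far points, in any Euclidean space. -/
theorem upper {X : Set E} (hX : IsCompact X) (hpos : 0 < diam X) {k : ℕ}
    (hk : Module.finrank ℝ E + 1 ≤ k) {P : Fin k → Set E} (hb : ∀ i, IsBounded (P i))
    (hd : ∀ i, diam (P i) < diam X)
    (hP : ∀ x ∈ X, ∀ y ∈ X, ∀ z ∈ X, y ≠ z → dist x y = diam X → dist x z = diam X →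
      x ∈ ⋃ i, P i) : Splits X k := by
  set f := (stdOrthonormalBasis ℝ E).repr.symm with hf
  have hr : ∀ Y : Set E, Y ⊆ range f := fun Y => by rw [f.surjective.range_eq]; exact subset_univ _
  have hc : IsCompact (f ⁻¹' X) := compact_pre f.isometry hX
  have e := diam_pre f.isometry (hr X)
  rw [splits_iff hX.isBounded hpos, ← cover_pre f.isometry (hr X)]
  refine Vale.Agent.P052.H342.main_reduction _ k hk _ hc.isBounded (e ▸ hpos) (fun i => f ⁻¹' P i)
    (fun i => f.isometry.antilipschitz.isBounded_preimage (hb i))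
    (fun i => by rw [e, diam_pre f.isometry (hr _)]; exact hd i) ?_
  rw [hc.isClosed.closure_eq, e]
  intro x hx y hy z hz hyz h1 h2
  rw [← preimage_iUnion]
  exact hP _ hx _ hy _ hz (f.injective.ne hyz) (by rw [f.dist_map, h1]) (by rw [f.dist_map, h2])

/-- The working form of constant width. -/
structure Wd (C : Set E) (D : ℝ) : Prop where
  pos : 0 < D
  sub : C ⊆ dual D C
  pair : ∀ u : E, ‖u‖ = 1 → ∃ p ∈ C, p - D • u ∈ C

variable {C : Set E} {D : ℝ} {u : E}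

theorem Wd.gen (h : Wd C D) (hu : ‖u‖ = 1) {p w : E} (hp : p - D • u ∈ C) (hw : w ∈ C) :
    ‖w - p‖ ^ 2 + 2 * D * ⟪u, w - p⟫ ≤ 0 :=
  (norm_shift_le hu h.pos w p).1 (h.sub hw _ hp)

theorem Wd.of_max (h : Wd C D) (hu : ‖u‖ = 1) {x : E} (hx : x ∈ C)
    (hm : ∀ w ∈ C, ⟪u, w⟫ ≤ ⟪u, x⟫) : x - D • u ∈ C := by
  obtain ⟨p, hp, hq⟩ := h.pair u hu
  rwa [eq_of_gen h.pos (h.gen hu hq hx) (hm p hp)]

theorem Wd.diam_eq (h : Wd C D) (hd : 1 ≤ Module.finrank ℝ E) (hb : IsBounded C) : diam C = D := by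
  have : Nontrivial E := Module.nontrivial_of_finrank_pos (R := ℝ) hd
  obtain ⟨u, hu⟩ := exists_norm_eq E zero_le_one
  obtain ⟨p, hp, hq⟩ := h.pair u hu
  refine le_antisymm (diam_le_of_forall_dist_le h.pos.le fun x hx y hy => by
    rw [dist_eq_norm]; exact h.sub hx y hy) ?_
  have h1 := dist_le_diam_of_mem hb hp hq
  rwa [dist_eq_norm, sub_sub_cancel, norm_smul, hu, mul_one, Real.norm_eq_abs,
    abs_of_pos h.pos] at h1

theorem far_dir (hD : 0 < D) {x y : E} (hxy : dist x y = D) :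
    ‖D⁻¹ • (x - y)‖ = 1 ∧ x - D • D⁻¹ • (x - y) = y := by
  refine ⟨?_, ?_⟩
  · rw [norm_smul, ← dist_eq_norm, hxy, norm_inv, Real.norm_eq_abs, abs_of_pos hD,
      inv_mul_cancel₀ hD.ne']
  · rw [smul_smul, mul_inv_cancel₀ hD.ne', one_smul, sub_sub_cancel]

theorem Wd.far_sing {C : ConvexBody E} (h : Wd (C : Set E) D) {x y z : E} (hx : x ∈ (C : Set E))
    (hy : y ∈ (C : Set E)) (hz : z ∈ (C : Set E)) (hyz : y ≠ z) (h1 : dist x y = D)
    (h2 : dist x z = D) : x ∈ sing C := by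
  obtain ⟨a1, a2⟩ := far_dir h.pos h1
  obtain ⟨b1, b2⟩ := far_dir h.pos h2
  refine ⟨hx, _, _, a1, b1, fun e => hyz ?_, fun w hw => le_of_gen h.pos (h.gen a1 ?_ hw),
    fun w hw => le_of_gen h.pos (h.gen b1 ?_ hw)⟩
  · rw [← a2, ← b2, e]
  · rwa [a2]
  · rwa [b2]

theorem Wd.constWidth {C : ConvexBody E} (h : Wd (C : Set E) D) : ConstWidth C D := by
  intro u hu
  obtain ⟨p, hp, hq⟩ := h.pair u hu
  have hu' : ‖-u‖ = 1 := by rw [norm_neg, hu]
  have h1 : IsGreatest ((fun x => ⟪u, x⟫) '' (C : Set E)) ⟪u, p⟫ :=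
    ⟨⟨p, hp, rfl⟩, by rintro _ ⟨w, hw, rfl⟩; exact le_of_gen h.pos (h.gen hu hq hw)⟩
  have h2 : IsLeast ((fun x => ⟪u, x⟫) '' (C : Set E)) ⟪u, p - D • u⟫ := by
    refine ⟨⟨_, hq, rfl⟩, ?_⟩
    rintro _ ⟨w, hw, rfl⟩
    have h3 := le_of_gen h.pos (h.gen (p := p - D • u) hu' (by simpa using hp) hw)
    rw [inner_neg_left, inner_neg_left] at h3
    exact neg_le_neg_iff.1 h3
  rw [h1.csSup_eq, h2.csInf_eq, inner_sub_right, inner_smul_right, real_inner_self_eq_norm_sq, hu]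
  ring

theorem wd_of_constWidth {C : ConvexBody E} (hD : 0 < D) (h : ConstWidth C D) :
    Wd (C : Set E) D := by
  have key : ∀ u : E, ‖u‖ = 1 → ∃ p ∈ (C : Set E), ∃ q ∈ (C : Set E), ⟪u, p - q⟫ = D ∧
      ∀ x ∈ (C : Set E), ∀ y ∈ (C : Set E), ⟪u, x - y⟫ ≤ D := by
    intro u hu
    obtain ⟨a1, a2⟩ := top_spec C.isCompact C.nonempty u
    obtain ⟨b1, b2⟩ := top_spec C.isCompact C.nonempty (-u)
    simp only [inner_neg_left, neg_le_neg_iff] at b2
    have h1 : IsGreatest ((fun x => ⟪u, x⟫) '' (C : Set E)) ⟪u, top (C : Set E) u⟫ :=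
      ⟨⟨_, a1, rfl⟩, by rintro _ ⟨w, hw, rfl⟩; exact a2 w hw⟩
    have h2 : IsLeast ((fun x => ⟪u, x⟫) '' (C : Set E)) ⟪u, top (C : Set E) (-u)⟫ :=
      ⟨⟨_, b1, rfl⟩, by rintro _ ⟨w, hw, rfl⟩; exact b2 w hw⟩
    have h3 := h u hu
    rw [h1.csSup_eq, h2.csInf_eq] at h3
    refine ⟨_, a1, _, b1, by rw [inner_sub_right, h3], fun x hx y hy => ?_⟩
    rw [inner_sub_right]
    linarith [a2 x hx, b2 y hy]
  have hsub : (C : Set E) ⊆ dual D C := by
    intro x hx y hy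
    rcases (norm_nonneg (x - y)).eq_or_lt with h0 | h0
    · linarith
    obtain ⟨a1, -⟩ := far_dir h0 (dist_eq_norm x y)
    obtain ⟨-, -, -, -, -, h1⟩ := key _ a1
    have h2 := h1 x hx y hy
    rwa [inner_smul_left, real_inner_self_eq_norm_sq, conj_trivial, sq, ← mul_assoc,
      inv_mul_cancel₀ h0.ne', one_mul] at h2
  refine ⟨hD, hsub, fun u hu => ?_⟩
  obtain ⟨p, hp, q, hq, h1, -⟩ := key u hu
  have h2 : ‖p - q‖ ^ 2 ≤ D ^ 2 := pow_le_pow_left₀ (norm_nonneg _) (hsub hp q hq) 2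
  have h3 := norm_shift_sq hu (q - p) D
  rw [norm_sub_rev q p, ← neg_sub p q, inner_neg_right, h1] at h3
  have h4 : -(p - q) + D • u = 0 := norm_eq_zero.1 (pow_eq_zero_iff two_ne_zero |>.1
    (le_antisymm (by nlinarith) (sq_nonneg _)))
  refine ⟨p, hp, ?_⟩
  have h5 : p - D • u = q - (-(p - q) + D • u) := by abel
  rwa [h5, h4, sub_zero]

/-- The theorem of Lenz. -/
theorem Wd.lower {C : ConvexBody E} (h : Wd (C : Set E) D) (hd : 1 ≤ Module.finrank ℝ E) :
    (Module.finrank ℝ E : ℕ∞) + 1 ≤ bSet (C : Set E) := by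
  refine le_bSet fun k hk => ?_
  have h1 := CW.lower hd C.isCompact C.nonempty (fun u hu x hx y hy h1 h2 => by
    have hu' : ‖-u‖ = 1 := by rw [norm_neg, hu]
    have h3 := h.of_max hu hx h1
    have h4 : x - D • u = y := eq_of_gen h.pos (h.gen hu' (h.of_max hu' hy h2) h3) (by
      have h5 := le_of_gen h.pos (h.gen (p := x - D • u) hu' (by simpa using hx) hy)
      exact h5)
    rw [h.diam_eq hd C.isCompact.isBounded, ← h4, dist_eq_norm, sub_sub_cancel, norm_smul, hu,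
      mul_one, Real.norm_eq_abs, abs_of_pos h.pos]) hk
  exact_mod_cast h1

theorem Wd.upper {C : ConvexBody E} (h : Wd (C : Set E) D) (hd : 1 ≤ Module.finrank ℝ E) {k : ℕ}
    (hk : Module.finrank ℝ E + 1 ≤ k) {P : Fin k → Set E} (hb : ∀ i, IsBounded (P i))
    (hP : ∀ i, diam (P i) < D) (hs : sing C ⊆ ⋃ i, P i) : Splits (C : Set E) k := by
  have e := h.diam_eq hd C.isCompact.isBounded
  refine CW.upper C.isCompact (e ▸ h.pos) hk hb (fun i => e ▸ hP i) ?_
  rw [e]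
  exact fun x hx y hy z hz hyz h1 h2 => hs (h.far_sing hx hy hz hyz h1 h2)

/-- Smooth bodies of constant width (Hadwiger, Lenz). -/
theorem smooth {C : ConvexBody E} (hD : 0 < D) (h : ConstWidth C D) (hd : 1 ≤ Module.finrank ℝ E)
    (hs : sing C = ∅) : bSet (C : Set E) = Module.finrank ℝ E + 1 := by
  have hw := wd_of_constWidth hD h
  refine le_antisymm ?_ (hw.lower hd)
  have h1 := bSet_le (hw.upper hd le_rfl (P := fun _ => ∅) (fun _ => isBounded_empty)
    (fun _ => by rw [diam_empty]; exact hD) (by rw [hs]; exact empty_subset _))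
  exact_mod_cast h1

/-- **The regular completion and its Borsuk number.** -/
theorem completion {X : Set E} (hX : IsCompact X) (hpos : 0 < diam X) :
    ∃ C : ConvexBody E, X ⊆ C ∧ ConstWidth C (diam X) ∧ diam (C : Set E) = diam X ∧ sing C ⊆ X ∧
      (∀ g : E ≃ᵢ E, g '' X = X → g '' (C : Set E) = C) ∧
      bSet (C : Set E) = max ((Module.finrank ℝ E : ℕ∞) + 1) (bSet X) := by
  have hne := nonempty_of_diam hpos
  have hle : ∀ x ∈ X, ∀ y ∈ X, ‖x - y‖ ≤ diam X := fun x hx y hy => by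
    rw [← dist_eq_norm]; exact dist_le_diam_of_mem hX.isBounded hx hy
  obtain ⟨q, hq, hmax⟩ := (hX.prod hX).exists_isMaxOn (hne.prod hne)
    (f := fun q : E × E => ‖q.1 - q.2‖) (by fun_prop)
  have hxy : ‖q.1 - q.2‖ = diam X := le_antisymm (hle _ hq.1 _ hq.2)
    (diam_le_of_forall_dist_le (norm_nonneg _) fun x hx y hy => by
      rw [dist_eq_norm]; exact hmax (a := (x, y)) ⟨hx, hy⟩)
  have hd : 1 ≤ Module.finrank ℝ E := by
    have : Nontrivial E := ⟨q.1, q.2, fun h => by rw [h, sub_self, norm_zero] at hxy; linarith⟩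
    exact Module.finrank_pos
  obtain ⟨C, c1, c2, c3, c4, ⟨p, c5, c6⟩, c7⟩ :=
    exists_regular (D := diam X) ⟨hpos, hX, hne, hle⟩ hq.1 hq.2 hxy
  set B : ConvexBody E := ⟨C, c2, c1, hne.mono c3⟩ with hB
  have hw : Wd (B : Set E) (diam X) := ⟨hpos, c4, fun u hu => ⟨p u, c5 u hu⟩⟩
  have e := hw.diam_eq hd c1.isBounded
  have hs : sing B ⊆ X := by
    rintro x ⟨hx, u, v, hu, hv, huv, h1, h2⟩
    have e1 : x = p u := eq_of_gen hpos (hw.gen hu (c5 u hu).2 hx) (h1 _ (c5 u hu).1)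
    have e2 : x = p v := eq_of_gen hpos (hw.gen hv (c5 v hv).2 hx) (h2 _ (c5 v hv).1)
    rw [e1]
    exact c6 u v hu hv huv (e1.symm.trans e2)
  refine ⟨B, c3, hw.constWidth, e, hs, c7, le_antisymm ?_ (max_le (hw.lower hd)
    (le_bSet fun k hk => bSet_le (hk.sub c1.isBounded c3 e.symm)))⟩
  obtain ⟨k, hk, ek⟩ := exists_splits (Y := X) (by
    rw [bSet_eq hX.isBounded hpos (exists_cover hX hpos)]
    exact ENat.natCast_ne_top _)
  obtain ⟨c, hc⟩ := hk.mono hpos (le_max_right (Module.finrank ℝ E + 1) k)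
  have h1 := bSet_le (hw.upper hd (le_max_left _ k) (P := fun i => {y ∈ X | c y = i})
    (fun i => hX.isBounded.subset (sep_subset _ _)) hc
    (fun x hx => mem_iUnion.2 ⟨c x, hs hx, rfl⟩))
  rw [ek]
  refine h1.trans (le_of_eq ?_)
  rw [Monotone.map_max Nat.mono_cast]
  push_cast
  rfl

end Vale.Agent.N052.CW
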